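import Vale.Agent.P227.M.Stmts
import Vale.Agent.P227.M.MM.Ifc

/-! # P254/MC: the moment map for centred (not necessarily even) regular potentials: definitions.

`MMc` = `P227.M.MM` without the field `even` (same field names, same order). -/

open MeasureTheory
open scoped Topology

namespace Vale.Agent.P254.MC

open Vale.Agent.P227.M

/-- the measure `e^{-V}` is centred -/
def Centred {n : ℕ} (V : E n → ℝ) : Prop := ∀ i, ∫ x, x i * Real.exp (-V x) = 0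

/-- `ψ` is (the Legendre transform of) a `C^{2,1}` moment map potential of `e^{-V}` -/
structure MMc {n : ℕ} (ψ V : E n → ℝ) (c C M : ℝ) : Prop where
  c_pos : 0 < c
  C2 : ContDiff ℝ 2 ψ
  lower : ∀ x v, c * ‖v‖ ^ 2 ≤ qf (hess ψ x) v
  upper : ∀ x v, qf (hess ψ x) v ≤ C * ‖v‖ ^ 2
  lip : ∀ i j x y, |hess ψ x i j - hess ψ y i j| ≤ M * ‖x - y‖
  ma : ∀ x, V x = (∑ i, x i * pd i ψ x) - ψ x - Real.log (hess ψ x).det

/-- existence of the moment map potential, no evenness -/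
def StmtMMc : Prop := ∀ (n : ℕ) (V : E n → ℝ) (c C : ℝ), Reg V c C → Centred V →
  ∃ (ψ : E n → ℝ) (M : ℝ), MMc ψ V c C M

/-- a function with explicit gradient and Hessian, pinched between `a` and `b`, the Hessian `M`-Lipschitz,
critical point at `0` (`Lim.C21` with `even` replaced by `zero`) -/
structure C21c {E : Type*} [NormedAddCommGroup E] [InnerProductSpace ℝ E] [FiniteDimensional ℝ E]
    (a b M : ℝ) (φ : E → ℝ) (G : E → E) (H : E → E →L[ℝ] E) : Prop where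
  grad : ∀ y, HasGradientAt φ (G y) y
  hess : ∀ y, HasFDerivAt G (H y) y
  lower : ∀ y v, a * ‖v‖ ^ 2 ≤ inner ℝ (H y v) v
  upper : ∀ y v, inner ℝ (H y v) v ≤ b * ‖v‖ ^ 2
  lip : ∀ y y', ‖H y - H y'‖ ≤ M * ‖y - y'‖
  zero : G 0 = 0

/-- output of the left half (level `k`) -/
def StmtLKc : Prop := ∀ (n : ℕ), 0 < n → ∀ (V : E n → ℝ) (c₀ C₀ : ℝ), Reg V c₀ C₀ → Centred V →
  ∃ M : ℝ, ∀ ε > 0, ε < 1 →
  ∃ (φ : E n → ℝ) (G : E n → E n) (H : E n → E n →L[ℝ] E n),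
    C21c ((1 - ε) * C₀⁻¹) c₀⁻¹ M φ G H ∧
    (∫ y, Real.exp (-φ y)) = (∫ x, Real.exp (-V x)) ∧
    ∀ F : E n → ℝ, LipschitzWith 1 F → (∀ x, |F x| ≤ 1) →
      |(∫ y, F (G y) * Real.exp (-φ y)) - ∫ x, F x * Real.exp (-V x)| ≤ ε

/-- the normalised level-`k` map: value and gradient at `0` vanish -/
noncomputable def TKc {n : ℕ} (k : ℝ) (V c : E n → ℝ) (x : E n) : ℝ :=
  MM.TK k V c x - fderiv ℝ (MM.TK k V c) 0 x

/-- the invariant class at level `k`, no evenness -/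
structure Clsc {n : ℕ} (k c₀ C₀ m : ℝ) (c : E n → ℝ) : Prop where
  reg : Reg c (c₀ * (k + 1) / k) (C₀ * (k + 1) / k)
  sc : SelfConc m c
  zero : c 0 = 0
  grad : fderiv ℝ c 0 = 0

/-- iterates of the level-`k` map, started at a quadratic -/
noncomputable def itKc {n : ℕ} (k c₀ : ℝ) (V : E n → ℝ) : ℕ → E n → ℝ
  | 0 => fun x => c₀ * (k + 1) / k / 2 * ‖x‖ ^ 2
  | i + 1 => TKc k V (itKc k c₀ V i)

/-- invariance of the class (owner helper980 or 724) -/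
def StmtInvc : Prop := ∀ (n : ℕ), 0 < n → ∀ (V : E n → ℝ) (c₀ C₀ : ℝ), Reg V c₀ C₀ →
  ∃ m K₀ : ℝ, 0 ≤ m ∧ 1 ≤ K₀ ∧ ∀ k : ℝ, K₀ ≤ k →
    (∀ c : E n → ℝ, Clsc k c₀ C₀ m c → Clsc k c₀ C₀ m (TKc k V c)) ∧
    (∀ c : E n → ℝ, Clsc k c₀ C₀ m c →
      Reg (MM.phiK k c) (k / ((k + 1) * C₀)) (k / ((k + 1) * c₀)) ∧ SelfConc m (MM.phiK k c))

/-- the quadratic start is in the class -/
def StmtStartc : Prop := ∀ (n : ℕ), 0 < n → ∀ (k c₀ C₀ m : ℝ), 0 < k → 0 < c₀ → c₀ ≤ C₀ → 0 ≤ m →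
  Clsc k c₀ C₀ m (fun x : E n => c₀ * (k + 1) / k / 2 * ‖x‖ ^ 2)

/-- descent -/
def StmtDescc : Prop := ∀ (n : ℕ), 0 < n → ∀ (V : E n → ℝ) (c₀ C₀ m k : ℝ), Reg V c₀ C₀ → Centred V → 0 ≤ m → 1 ≤ k →
  (∀ i, Clsc k c₀ C₀ m (itKc k c₀ V i)) →
  (∀ i, Reg (MM.phiK k (itKc k c₀ V i)) (k / ((k + 1) * C₀)) (k / ((k + 1) * c₀))) →
  ∀ ε > 0, ∃ i : ℕ, ∀ F : E n → ℝ, LipschitzWith 1 F → (∀ x, |F x| ≤ 1) →
    |(∫ y, F (gradient (MM.phiK k (itKc k c₀ V i)) y) * Real.exp (-MM.phiK k (itKc k c₀ V i) y)) /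
        (∫ y, Real.exp (-MM.phiK k (itKc k c₀ V i) y))
      - (∫ x, F x * Real.exp (-V x)) / (∫ x, Real.exp (-V x))| ≤ Real.sqrt (n / (c₀ * k)) + ε

end Vale.Agent.P254.MC
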