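import Vale.Agent.P227.M.LK.DescK
import Vale.Agent.P227.M.LK.Push

/-! # P254/MC: the level-`k` descent modulo affine functions (copy of `P227/M/LK/DescK`, helper724) -/

open MeasureTheory Set Filter Topology

namespace Vale.Agent.P254.MC.DscC

open Vale.Agent.P227.M.LK.Dsc Vale.Agent.P227.M.LK

set_option linter.unusedSectionVars false

variable {E : Type*} [NormedAddCommGroup E] [InnerProductSpace ℝ E] [FiniteDimensional ℝ E]
  [MeasurableSpace E] [BorelSpace E]

variable {V : E → ℝ} {k a b : ℝ} {c f : E → ℝ}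

/-- `f` is in the class `Qg` up to a linear function -/
def Tl (a b : ℝ) (f : E → ℝ) : Prop := ∃ (g : E) (f' : E → ℝ), Qg a b f' ∧ ∀ x, f x = f' x + inner ℝ x g

theorem inner_meas (g : E) : Measurable fun x : E => (inner ℝ x g : ℝ) :=
  (continuous_id.inner continuous_const).measurable

theorem phi_tilt (k : ℝ) (c : E → ℝ) (g y : E) : phi k (fun x => c x + inner ℝ x g) y = phi k c (y - g) := by
  rw [phi_eq, phi_eq]
  congr 2
  refine integral_congr_ae (Eventually.of_forall fun x => ?_)
  simp only [inner_sub_right]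
  congr 1
  ring

theorem Z_tilt (k : ℝ) (c : E → ℝ) (g : E) : Z k (fun x => c x + inner ℝ x g) = Z k c := by
  unfold Z
  simp only [phi_tilt]
  exact integral_sub_right_eq_self (fun y : E => Real.exp (-phi k c y)) g

theorem Tl.of_qg (h : Qg a b f) : Tl a b f := ⟨0, f, h, fun x => by simp⟩

theorem Tl.eq (h : Tl a b f) : ∃ (g : E) (f' : E → ℝ), Qg a b f' ∧ f = fun x => f' x + inner ℝ x g := by
  obtain ⟨g, f', h1, h2⟩ := h
  exact ⟨g, f', h1, funext h2⟩

theorem Tl.meas (h : Tl a b f) : Measurable f := by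
  obtain ⟨g, f', h1, rfl⟩ := h.eq
  exact h1.meas.add (inner_meas g)

theorem Tl.int1 (hk : 0 < k) (ha : 0 < a) (h : Tl a b f) (y : E) :
    Integrable fun x : E => Real.exp (k * inner ℝ x y - k * f x) := by
  obtain ⟨g, f', h1, rfl⟩ := h.eq
  refine (h1.int1 hk ha (y - g)).congr (Eventually.of_forall fun x => ?_)
  simp only [inner_sub_right]
  congr 1
  ring

theorem Tl.int3 (hk : 0 < k) (ha : 0 < a) (hb : 0 < b) (h : Tl a b f) : Integrable fun y : E => Real.exp (-phi k f y) := by
  obtain ⟨g, f', h1, rfl⟩ := h.eq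
  simp only [phi_tilt]
  exact (h1.int3 hk ha hb).comp_sub_right g

theorem Tl.Z_pos (hk : 0 < k) (ha : 0 < a) (hb : 0 < b) (h : Tl a b f) : 0 < Z k f := integral_exp_pos (h.int3 hk ha hb)

theorem Tl.integrable (ha : 0 < a) (hb : 0 < b) (h : Tl a b f) (hV : Pot V) : Integrable fun x : E => f x * Real.exp (-V x) := by
  obtain ⟨g, f', h1, rfl⟩ := h.eq
  have h2 := h1.integrable ha hb hV
  have h3 : Integrable fun x : E => (inner ℝ x g : ℝ) * Real.exp (-V x) := by
    have h4 : Integrable fun x : E => ‖g‖ * Real.exp (-V x) + ‖g‖ * (‖x‖ ^ 2 * Real.exp (-V x)) :=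
      (hV.int0.const_mul _).add (hV.int2.const_mul _)
    refine h4.mono' ((inner_meas g).mul (Real.measurable_exp.comp hV.meas.neg)).aestronglyMeasurable
      (Eventually.of_forall fun x => ?_)
    rw [Real.norm_eq_abs, abs_mul, abs_of_pos (Real.exp_pos _)]
    have h5 := abs_real_inner_le_norm x g
    have h6 : ‖x‖ ≤ 1 + ‖x‖ ^ 2 := by nlinarith [sq_nonneg (‖x‖ - 1), norm_nonneg x]
    have h7 : |(inner ℝ x g : ℝ)| ≤ ‖g‖ * (1 + ‖x‖ ^ 2) := by
      refine h5.trans ?_
      rw [mul_comm]
      exact mul_le_mul_of_nonneg_left h6 (norm_nonneg _)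
    calc |(inner ℝ x g : ℝ)| * Real.exp (-V x) ≤ ‖g‖ * (1 + ‖x‖ ^ 2) * Real.exp (-V x) :=
          mul_le_mul_of_nonneg_right h7 (Real.exp_pos _).le
      _ = _ := by ring
  refine (h2.add h3).congr (Eventually.of_forall fun x => ?_)
  simp only [Pi.add_apply]
  ring

/-- integrability of linear functions -/
theorem int_inner (hV : Pot V) (g : E) : Integrable fun x : E => (inner ℝ x g : ℝ) * Real.exp (-V x) := by
  have h4 : Integrable fun x : E => ‖g‖ * Real.exp (-V x) + ‖g‖ * (‖x‖ ^ 2 * Real.exp (-V x)) :=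
    (hV.int0.const_mul _).add (hV.int2.const_mul _)
  refine h4.mono' ((inner_meas g).mul (Real.measurable_exp.comp hV.meas.neg)).aestronglyMeasurable
    (Eventually.of_forall fun x => ?_)
  rw [Real.norm_eq_abs, abs_mul, abs_of_pos (Real.exp_pos _)]
  have h5 := abs_real_inner_le_norm x g
  have h6 : ‖x‖ ≤ 1 + ‖x‖ ^ 2 := by nlinarith [sq_nonneg (‖x‖ - 1), norm_nonneg x]
  have h7 : |(inner ℝ x g : ℝ)| ≤ ‖g‖ * (1 + ‖x‖ ^ 2) := by
    refine h5.trans ?_
    rw [mul_comm]
    exact mul_le_mul_of_nonneg_left h6 (norm_nonneg _)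
  calc |(inner ℝ x g : ℝ)| * Real.exp (-V x) ≤ ‖g‖ * (1 + ‖x‖ ^ 2) * Real.exp (-V x) :=
        mul_le_mul_of_nonneg_right h7 (Real.exp_pos _).le
    _ = _ := by ring

theorem J_tilt (hV : Pot V) (hc : ∀ g : E, ∫ x, (inner ℝ x g : ℝ) * Real.exp (-V x) = 0)
    (hci : Integrable fun x : E => c x * Real.exp (-V x)) (g : E) :
    J k V (fun x => c x + inner ℝ x g) = J k V c := by
  unfold J
  rw [Z_tilt]
  have h1 : (fun x : E => (c x + inner ℝ x g) * Real.exp (-V x))
      = fun x => c x * Real.exp (-V x) + inner ℝ x g * Real.exp (-V x) := by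
    ext x
    ring
  rw [h1, integral_add hci (int_inner hV g), hc g, add_zero]

/-- the key descent inequality for the mass -/
theorem mass_le (hk : 0 < k) (ha : 0 < a) (hb : 0 < b) (h : Qg a b c) (hT : Tl a b (T0 k V c))
    (hVi : Integrable fun x : E => Real.exp (-V x)) (hV1 : ∫ x : E, Real.exp (-V x) = 1) :
    (1 + 1 / k) * Real.log (Z k c) ≤ Real.log (Z k (T0 k V c)) := by
  have hZ := h.Z_pos hk ha hb
  have hZ' := hT.Z_pos hk ha hb
  -- the function `t`
  have hkT : ∀ x, k * T0 k V c x = V x + Q k c x := fun x => by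
    unfold T0
    field_simp
  have hFm : Measurable fun p : E × E => Real.exp (k * inner ℝ p.1 p.2 - k * T0 k V c p.1 - (k + 1) * phi k c p.2) := by
    have : Measurable fun p : E × E => (inner ℝ p.1 p.2 : ℝ) := (continuous_fst.inner continuous_snd).measurable
    exact Real.measurable_exp.comp (((this.const_mul k).sub ((hT.meas.comp measurable_fst).const_mul k)).sub
      (((measurable_phi h.meas).comp measurable_snd).const_mul (k + 1)))
  have hinner : ∀ x : E, ∫ y : E, Real.exp (k * inner ℝ x y - k * T0 k V c x - (k + 1) * phi k c y) = Real.exp (-V x) := by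
    intro x
    have h1 : (fun y : E => Real.exp (k * inner ℝ x y - k * T0 k V c x - (k + 1) * phi k c y))
        = fun y : E => Real.exp (k * inner ℝ x y - (k + 1) * phi k c y) * Real.exp (-(k * T0 k V c x)) := by
      ext y
      rw [← Real.exp_add]
      congr 1
      ring
    rw [h1, integral_mul_const, ← exp_Q (h.int2 hk ha hb x), ← Real.exp_add, hkT]
    congr 1
    ring
  have hFi : Integrable (fun p : E × E => Real.exp (k * inner ℝ p.1 p.2 - k * T0 k V c p.1 - (k + 1) * phi k c p.2))
      ((volume : Measure E).prod volume) := by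
    rw [integrable_prod_iff hFm.aestronglyMeasurable]
    refine ⟨Eventually.of_forall fun x => ?_, ?_⟩
    · have := (h.int2 hk ha hb x).mul_const (Real.exp (-(k * T0 k V c x)))
      refine this.congr (Eventually.of_forall fun y => ?_)
      simp only
      rw [← Real.exp_add]
      congr 1
      ring
    · refine hVi.congr (Eventually.of_forall fun x => ?_)
      simp only [Real.norm_eq_abs, abs_of_pos (Real.exp_pos _)]
      exact (hinner x).symm
  have hswap := integral_integral_swap
    (f := fun (x y : E) => Real.exp (k * inner ℝ x y - k * T0 k V c x - (k + 1) * phi k c y)) hFi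
  simp only [hinner] at hswap
  rw [hV1] at hswap
  have hy : ∀ y : E, ∫ x : E, Real.exp (k * inner ℝ x y - k * T0 k V c x - (k + 1) * phi k c y)
      = Real.exp (-phi k c y) * Real.exp (k * (phi k (T0 k V c) y - phi k c y)) := by
    intro y
    have h1 : (fun x : E => Real.exp (k * inner ℝ x y - k * T0 k V c x - (k + 1) * phi k c y))
        = fun x : E => Real.exp (k * inner ℝ x y - k * T0 k V c x) * Real.exp (-((k + 1) * phi k c y)) := by
      ext x
      rw [← Real.exp_add]
      congr 1
    rw [h1, integral_mul_const, ← exp_phi hk (hT.int1 hk ha y), ← Real.exp_add, ← Real.exp_add]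
    congr 1
    ring
  have hti : Integrable fun y : E => Real.exp (-phi k c y) * Real.exp (k * (phi k (T0 k V c) y - phi k c y)) := by
    refine hFi.integral_prod_right.congr (Eventually.of_forall fun y => ?_)
    exact hy y
  have ht1 : ∫ y : E, Real.exp (-phi k c y) * Real.exp (k * (phi k (T0 k V c) y - phi k c y)) = 1 := by
    rw [hswap]
    congr 1
    ext y
    exact (hy y).symm
  -- pointwise inequality
  have hpt : ∀ y : E, Real.exp ((1 / k) * Real.log (Z k c)) * ((1 + 1 / k) * Real.exp (-phi k c y)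
      - (Z k c / k) * (Real.exp (-phi k c y) * Real.exp (k * (phi k (T0 k V c) y - phi k c y))))
      ≤ Real.exp (-phi k (T0 k V c) y) := by
    intro y
    set t := Real.exp (k * (phi k (T0 k V c) y - phi k c y)) with ht
    have htp : 0 < t := Real.exp_pos _
    have h1 : Real.exp (-phi k (T0 k V c) y) = Real.exp ((1 / k) * Real.log (Z k c)) * (Real.exp (-phi k c y)
        * Real.exp (-(1 / k) * Real.log (t * Z k c))) := by
      rw [Real.log_mul htp.ne' hZ.ne', ht, Real.log_exp, ← Real.exp_add, ← Real.exp_add]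
      congr 1
      field_simp
      ring
    rw [h1]
    refine mul_le_mul_of_nonneg_left ?_ (Real.exp_pos _).le
    have h2 : 1 - (1 / k) * (t * Z k c - 1) ≤ Real.exp (-(1 / k) * Real.log (t * Z k c)) := by
      have h3 := Real.add_one_le_exp (-(1 / k) * Real.log (t * Z k c))
      have h4 := Real.log_le_sub_one_of_pos (mul_pos htp hZ)
      have h5 := mul_le_mul_of_nonneg_left h4 (by positivity : 0 ≤ 1 / k)
      linarith
    calc (1 + 1 / k) * Real.exp (-phi k c y) - Z k c / k * (Real.exp (-phi k c y) * t)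
        = Real.exp (-phi k c y) * (1 - (1 / k) * (t * Z k c - 1)) := by ring
      _ ≤ _ := mul_le_mul_of_nonneg_left h2 (Real.exp_pos _).le
  have hint := integral_mono ((((h.int3 hk ha hb).const_mul (1 + 1 / k)).sub (hti.const_mul (Z k c / k))).const_mul
    (Real.exp ((1 / k) * Real.log (Z k c)))) (hT.int3 hk ha hb) hpt
  have hlhs : ∫ y : E, Real.exp ((1 / k) * Real.log (Z k c)) * ((1 + 1 / k) * Real.exp (-phi k c y)
      - (Z k c / k) * (Real.exp (-phi k c y) * Real.exp (k * (phi k (T0 k V c) y - phi k c y))))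
      = Real.exp ((1 / k) * Real.log (Z k c)) * Z k c := by
    rw [integral_const_mul, integral_sub ((h.int3 hk ha hb).const_mul _) (hti.const_mul _), integral_const_mul,
      integral_const_mul, ht1]
    unfold Z
    ring
  have hfin : Real.exp ((1 / k) * Real.log (Z k c)) * Z k c ≤ Z k (T0 k V c) := by
    rw [← hlhs]
    exact hint
  have := Real.log_le_log (by positivity) hfin
  rw [Real.log_mul (Real.exp_pos _).ne' hZ.ne', Real.log_exp] at this
  linarith

/-- **descent** -/
theorem descent (hk : 0 < k) (ha : 0 < a) (hb : 0 < b) (hV : Pot V) (h : Qg a b c) (hT : Tl a b (T0 k V c)) :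
    J k V (T0 k V c) ≤ J k V c - KL k V c / k := by
  have hVi := hV.int0
  have hV1 := hV.one
  have hVV := hV.intV
  have hkT : ∀ x, k * T0 k V c x = V x + Q k c x := fun x => by
    unfold T0
    field_simp
  have hci := h.integrable ha hb hV
  have hTi := hT.integrable ha hb hV
  have hQi : Integrable fun x : E => Q k c x * Real.exp (-V x) := by
    refine ((hTi.const_mul k).sub hVV).congr (Eventually.of_forall fun x => ?_)
    simp only [Pi.sub_apply]
    rw [← mul_assoc, hkT]
    ring
  have e1 : ∫ x : E, T0 k V c x * Real.exp (-V x)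
      = (1 / k) * ((∫ x : E, V x * Real.exp (-V x)) + ∫ x : E, Q k c x * Real.exp (-V x)) := by
    rw [← integral_add hVV hQi, ← integral_const_mul]
    congr 1
    ext x
    unfold T0
    field_simp
  have e2 : KL k V c = k * (∫ x : E, c x * Real.exp (-V x)) - (∫ x : E, Q k c x * Real.exp (-V x))
      + Real.log (Z k c) - ∫ x : E, V x * Real.exp (-V x) := by
    unfold KL
    have h1 : (fun x : E => (W k c x - V x) * Real.exp (-V x)) = fun x => ((k * (c x * Real.exp (-V x))
        - Q k c x * Real.exp (-V x)) + Real.log (Z k c) * Real.exp (-V x)) - V x * Real.exp (-V x) := by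
      ext x
      unfold W
      ring
    have i1 : Integrable fun x : E => k * (c x * Real.exp (-V x)) := hci.const_mul k
    have i2 : Integrable fun x : E => k * (c x * Real.exp (-V x)) - Q k c x * Real.exp (-V x) := i1.sub hQi
    have i3 : Integrable fun x : E => Real.log (Z k c) * Real.exp (-V x) := hVi.const_mul _
    have i4 : Integrable fun x : E => k * (c x * Real.exp (-V x)) - Q k c x * Real.exp (-V x)
      + Real.log (Z k c) * Real.exp (-V x) := i2.add i3
    rw [h1, integral_sub i4 hVV, integral_add i2 i3, integral_sub i1 hQi,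
      integral_const_mul, integral_const_mul, hV1, mul_one]
  have h3 := mass_le hk ha hb h hT hVi hV1
  unfold J
  rw [e1, e2]
  have e3 : (k * (∫ x : E, c x * Real.exp (-V x)) - (∫ x : E, Q k c x * Real.exp (-V x))
      + Real.log (Z k c) - ∫ x : E, V x * Real.exp (-V x)) / k = (∫ x : E, c x * Real.exp (-V x))
      - (1 / k) * (∫ x : E, Q k c x * Real.exp (-V x)) + (1 / k) * Real.log (Z k c)
      - (1 / k) * ∫ x : E, V x * Real.exp (-V x) := by
    field_simp
  rw [e3]
  nlinarith [h3]

/-- descent for a map which differs from `T0` by an affine function -/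
theorem descentN (hk : 0 < k) (ha : 0 < a) (hb : 0 < b) (hV : Pot V)
    (hc : ∀ g : E, ∫ x, (inner ℝ x g : ℝ) * Real.exp (-V x) = 0) (h : Qg a b c) {f : E → ℝ} (hf : Qg a b f)
    {g : E} {s : ℝ} (hT : ∀ x, T0 k V c x = f x + s + inner ℝ x g) :
    J k V f ≤ J k V c - KL k V c / k := by
  have h1 : T0 k V c = fun x => (f x + s) + inner ℝ x g := funext hT
  have h2 : Tl a b (T0 k V c) := ⟨g, fun x => f x + s, hf.add_const s, hT⟩
  have h3 := descent hk ha hb hV h h2
  have h4 : J k V (T0 k V c) = J k V f := by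
    rw [h1, J_tilt hV hc ((hf.add_const s).integrable ha hb hV)]
    exact J_add_const hk _ hf ha hb hV.int0 hV.one (hf.integrable ha hb hV)
  rwa [h4] at h3

/-- **small relative entropy along the iteration**, for any invariant class `P` -/
theorem exists_KL_le (hk : 0 < k) (ha : 0 < a) (hb : 0 < b) (hV : Pot V)
    (hc : ∀ g : E, ∫ x, (inner ℝ x g : ℝ) * Real.exp (-V x) = 0)
    (S : (E → ℝ) → (E → ℝ)) (P : (E → ℝ) → Prop) (c₀ : E → ℝ) (h0 : P c₀)
    (hPT : ∀ c, P c → P (S c)) (hPG : ∀ c, P c → Qg a b c)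
    (hS : ∀ c, P c → ∃ (g : E) (s : ℝ), ∀ x, T0 k V c x = S c x + s + inner ℝ x g) {ε : ℝ} (hε : 0 < ε) :
    ∃ c, P c ∧ KL k V c ≤ ε := by
  by_contra hcon
  simp only [not_exists, not_and, not_le] at hcon
  have hPi : ∀ i : ℕ, P (S^[i] c₀) := by
    intro i
    induction i with
    | zero => exact h0
    | succ i ih =>
      rw [Function.iterate_succ_apply']
      exact hPT _ ih
  have hJi : ∀ i : ℕ, J k V (S^[i] c₀) ≤ J k V c₀ - i * (ε / k) := by
    intro i
    induction i with
    | zero => simp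
    | succ i ih =>
      rw [Function.iterate_succ_apply']
      obtain ⟨g, s, hgs⟩ := hS _ (hPi i)
      have h1 := descentN hk ha hb hV hc (hPG _ (hPi i)) (hPG _ (hPT _ (hPi i))) hgs
      have h2 := (hcon _ (hPi i)).le
      have h3 : ε / k ≤ KL k V (S^[i] c₀) / k := by gcongr
      push_cast
      linarith
  set m := gc E k b - Real.log (∫ y : E, Real.exp (-(1 * (1 / b / 2 * ‖y‖ ^ 2)))) with hm
  obtain ⟨i, hi⟩ := exists_nat_gt ((J k V c₀ - m) / (ε / k))
  have h1 := (hPG _ (hPi i)).J_ge hk ha hb hV.int0 hV.one ((hPG _ (hPi i)).integrable ha hb hV)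
  rw [← hm] at h1
  have h2 := hJi i
  rw [div_lt_iff₀ (by positivity)] at hi
  linarith

/-- **push-forward error at level `k`** -/
theorem push_error {A : ℝ} (hk : 0 < k) (ha : 0 < a) (hb : 0 < b) (hV : Pot V) (h : Qg a b c) (hT : Tl a b (T0 k V c))
    (hA : 0 ≤ A) {g : E → E} (hg : Measurable g)
    (hsc : ∀ y z, phi k c (y + z) ≤ phi k c y + inner ℝ (g y) z + A / 2 * ‖z‖ ^ 2) {σ η : ℝ} (hσ : 0 < σ)
    (hAσ : Module.finrank ℝ E * (A / k) ≤ σ ^ 2) (hη : 0 < η) (hKL : KL k V c ≤ η ^ 2) {F : E → ℝ} {L M : ℝ}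
    (hF : Continuous F) (hL0 : 0 ≤ L) (hL : ∀ x y, |F x - F y| ≤ L * ‖x - y‖) (hM : ∀ x, |F x| ≤ M) :
    |(∫ y, F (g y) * Real.exp (-phi k c y)) / Z k c - ∫ x, F x * Real.exp (-V x)| ≤ L * σ + 2 * M * η := by
  have h1 := law_error hk ha hb h hA hg hsc hσ hAσ hF hL0 hL hM
  have hM0 : 0 ≤ M := (abs_nonneg _).trans (hM 0)
  -- integrability of `(W - V) e^{-V}`
  have hci := h.integrable ha hb hV
  have hTi := hT.integrable ha hb hV
  have hkT : ∀ x, k * T0 k V c x = V x + Q k c x := fun x => by
    unfold T0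
    field_simp
  have hQi : Integrable fun x : E => Q k c x * Real.exp (-V x) := by
    refine ((hTi.const_mul k).sub hV.intV).congr (Eventually.of_forall fun x => ?_)
    simp only [Pi.sub_apply]
    rw [← mul_assoc, hkT]
    ring
  have hKi : Integrable fun x : E => (W k c x - V x) * Real.exp (-V x) := by
    have h2 := (((hci.const_mul k).sub hQi).add (hV.int0.const_mul (Real.log (Z k c)))).sub hV.intV
    refine h2.congr (Eventually.of_forall fun x => ?_)
    simp only [Pi.sub_apply, Pi.add_apply]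
    unfold W
    ring
  have h2 := abs_sub_le_of_KL hη hV.int0 (h.integrable_exp_neg_W' hk ha hb) hV.one (h.integral_W hk ha hb) hKi hKL
    hF.aestronglyMeasurable hM0 hM
  calc |(∫ y, F (g y) * Real.exp (-phi k c y)) / Z k c - ∫ x, F x * Real.exp (-V x)|
      = |((∫ y, F (g y) * Real.exp (-phi k c y)) / Z k c - ∫ x, F x * Real.exp (-W k c x))
        + ((∫ x, F x * Real.exp (-W k c x)) - ∫ x, F x * Real.exp (-V x))| := by ring_nf
    _ ≤ _ := abs_add_le _ _
    _ ≤ L * σ + 2 * M * η := add_le_add h1 h2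

end Vale.Agent.P254.MC.DscC
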