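import Vale.Agent.P254.MC.Rad497

/-! # P227/M/ID: bounded Lipschitz functions, `∫ ∂_a G = 0` (helper497) -/

set_option linter.all false

open MeasureTheory
open scoped Topology

namespace Vale.Agent.P254.MC.R497

open Vale.Agent.P227.M Vale.Agent.P254.MC

variable {n : ℕ} {ψ V : E n → ℝ} {c C M : ℝ}

/-- bounded and Lipschitz -/
def BL (f : E n → ℝ) : Prop := (∃ B, ∀ x, |f x| ≤ B) ∧ ∃ K, ∀ x y, |f x - f y| ≤ K * ‖x - y‖

theorem BL.mul {f g : E n → ℝ} (hf : BL f) (hg : BL g) : BL (fun x => f x * g x) := by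
  obtain ⟨⟨B1, hB1⟩, ⟨K1, hK1⟩⟩ := hf
  obtain ⟨⟨B2, hB2⟩, ⟨K2, hK2⟩⟩ := hg
  refine ⟨⟨B1 * B2, fun x => ?_⟩, ⟨B1 * K2 + K1 * B2, fun x y => ?_⟩⟩
  · rw [abs_mul]
    exact mul_le_mul (hB1 x) (hB2 x) (abs_nonneg _) ((abs_nonneg _).trans (hB1 x))
  · have e : f x * g x - f y * g y = f x * (g x - g y) + (f x - f y) * g y := by ring
    rw [e]
    refine (abs_add_le _ _).trans ?_
    rw [abs_mul, abs_mul]
    have h1 : |f x| * |g x - g y| ≤ B1 * (K2 * ‖x - y‖) :=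
      mul_le_mul (hB1 x) (hK2 x y) (abs_nonneg _) ((abs_nonneg _).trans (hB1 x))
    have h2 : |f x - f y| * |g y| ≤ (K1 * ‖x - y‖) * B2 :=
      mul_le_mul (hK1 x y) (hB2 y) (abs_nonneg _) ((abs_nonneg _).trans (hK1 x y))
    nlinarith [h1, h2]

theorem BL.add {f g : E n → ℝ} (hf : BL f) (hg : BL g) : BL (fun x => f x + g x) := by
  obtain ⟨⟨B1, hB1⟩, ⟨K1, hK1⟩⟩ := hf
  obtain ⟨⟨B2, hB2⟩, ⟨K2, hK2⟩⟩ := hg
  refine ⟨⟨B1 + B2, fun x => (abs_add_le _ _).trans (add_le_add (hB1 x) (hB2 x))⟩, ⟨K1 + K2, fun x y => ?_⟩⟩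
  have e : f x + g x - (f y + g y) = (f x - f y) + (g x - g y) := by ring
  rw [e, add_mul]
  exact (abs_add_le _ _).trans (add_le_add (hK1 x y) (hK2 x y))

theorem BL.const (r : ℝ) : BL (fun _ : E n => r) :=
  ⟨⟨|r|, fun _ => le_rfl⟩, ⟨0, fun x y => by simp⟩⟩

theorem BL.sum {ι : Type*} (s : Finset ι) {f : ι → E n → ℝ} (hf : ∀ i ∈ s, BL (f i)) :
    BL (fun x => ∑ i ∈ s, f i x) := by
  classical
  induction s using Finset.induction_on with
  | empty => simpa using BL.const (n := n) 0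
  | insert a s ha ih =>
    have h1 : (fun x => ∑ i ∈ insert a s, f i x) = fun x => f a x + ∑ i ∈ s, f i x := by
      funext x
      rw [Finset.sum_insert ha]
    rw [h1]
    exact (hf a (Finset.mem_insert_self a s)).add (ih fun i hi => hf i (Finset.mem_insert_of_mem hi))

theorem BL.lip {f : E n → ℝ} (hf : BL f) : ∃ K, LipschitzWith K f := by
  obtain ⟨_, ⟨K, hK⟩⟩ := hf
  exact ⟨_, rad_lipw hK⟩

/-- `C¹` with compact support -/
theorem BL.of_smooth {f : E n → ℝ} (hf : ContDiff ℝ 1 f) (hs : HasCompactSupport f) : BL f := by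
  obtain ⟨B, hB⟩ := hf.continuous.bounded_above_of_compact_support hs
  obtain ⟨K, hK⟩ := ContDiff.lipschitzWith_of_hasCompactSupport hs hf (by norm_num)
  refine ⟨⟨B, fun x => by simpa using hB x⟩, ⟨K, fun x y => ?_⟩⟩
  have := hK.dist_le_mul x y
  rwa [Real.dist_eq, dist_eq_norm] at this

theorem BL.tau (h : MMc ψ V c C M) (i j : Fin n) : BL (fun x => tau ψ x i j) :=
  ⟨⟨_, fun x => rad_tau_le h x i j⟩, ⟨_, fun x y => rad_tau_lip h x y i j⟩⟩

theorem rad_pd_bdd {G : E n → ℝ} {K : NNReal} (hG : LipschitzWith K G) (a : Fin n) (x : E n) : |pd a G x| ≤ K := by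
  have h1 := norm_fderiv_le_of_lipschitz ℝ hG (x₀ := x)
  have h2 : ‖(ei a : E n)‖ = 1 := by simp [ei]
  calc |pd a G x| = ‖fderiv ℝ G x (ei a)‖ := rfl
    _ ≤ ‖fderiv ℝ G x‖ * ‖(ei a : E n)‖ := ContinuousLinearMap.le_opNorm _ _
    _ ≤ K := by rw [h2, mul_one]; exact h1

theorem rad_pd_meas (G : E n → ℝ) (a : Fin n) : Measurable (pd a G) :=
  measurable_fderiv_apply_const ℝ G (ei a)

theorem rad_pd_int {G : E n → ℝ} (hG : BL G) (hs : HasCompactSupport G) (a : Fin n) : Integrable (pd a G) := by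
  obtain ⟨K, hK⟩ := hG.lip
  have h1 : IntegrableOn (pd a G) (tsupport G) := by
    refine Measure.integrableOn_of_bounded (M := K) hs.isCompact.measure_lt_top.ne
      (rad_pd_meas G a).aestronglyMeasurable (Filter.Eventually.of_forall fun x => ?_)
    exact rad_pd_bdd hK a x
  refine (integrableOn_iff_integrable_of_support_subset fun x hx => ?_).1 h1
  have h2 : fderiv ℝ G x ≠ 0 := by
    intro h0
    apply hx
    show fderiv ℝ G x (ei a) = 0
    rw [h0]
    rfl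
  exact support_fderiv_subset ℝ h2

theorem rad_ibp0 {G : E n → ℝ} (hG : BL G) (hs : HasCompactSupport G) (a : Fin n) : ∫ x, pd a G x = 0 := by
  obtain ⟨K, hK⟩ := hG.lip
  have h1 := LipschitzWith.integral_lineDeriv_mul_eq (μ := (volume : Measure (E n))) (LipschitzWith.const (1 : ℝ)) hK hs (-(ei a))
  have h2 : ∀ x : E n, lineDeriv ℝ (fun _ : E n => (1 : ℝ)) x (-(ei a)) = 0 := by
    intro x
    simp [lineDeriv]
  simp only [h2, zero_mul, integral_zero, neg_neg, mul_one] at h1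
  rw [h1]
  refine integral_congr_ae ?_
  filter_upwards [hK.ae_differentiableAt] with x hx
  exact (hx.lineDeriv_eq_fderiv).symm

end Vale.Agent.P254.MC.R497
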