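import Vale.Agent.P254.MC.Defs

/-! # P254/MC: interface statements of block S2 (static third moment inequality), no evenness (helper711) -/

open MeasureTheory

namespace Vale.Agent.P254.MC

open Vale.Agent.P227.M

/-- carré du champ `⟨τ∇F, ∇F⟩` -/
noncomputable def cdc {n : ℕ} (ψ F : E n → ℝ) (x : E n) : ℝ :=
  ∑ k, ∑ l, tau ψ x k l * pd k F x * pd l F x

/-- S2c: spectral gap (Brascamp-Lieb) for bounded Lipschitz functions -/
def StmtGap : Prop := ∀ (n : ℕ) (ψ V : E n → ℝ) (c C M : ℝ), Reg V c C → MMc ψ V c C M →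
  ∀ (F : E n → ℝ) (K B : ℝ), (∀ x y, |F x - F y| ≤ K * ‖x - y‖) → (∀ x, |F x| ≤ B) →
    Ex V (fun x => F x ^ 2) - (Ex V F) ^ 2 ≤ Ex V (cdc ψ F)

/-- S2b: `2 N₁ ≤ E tr(WτWτ) - E tr(WτWτV''τ)`, `W = diag w` -/
def StmtNI : Prop := ∀ (n : ℕ) (ψ V : E n → ℝ) (c C M : ℝ), Reg V c C → MMc ψ V c C M →
  ∀ w : Fin n → ℝ,
    2 * ∑ i, ∑ j, w i * w j * Ex V (cdc ψ (fun x => tau ψ x i j))
      ≤ Ex V (fun x => ∑ i, ∑ j, w i * w j * tau ψ x i j ^ 2)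
        - Ex V (fun x => ∑ i, ∑ j, w i * w j * tau ψ x i j * (tau ψ x * hess V x * tau ψ x) i j)

/-- S2a: Stein identity for products of a polynomial (degree `≤ 1`) and a bounded Lipschitz function -/
def StmtSt : Prop := ∀ (n : ℕ) (ψ V : E n → ℝ) (c C M : ℝ), Reg V c C → MMc ψ V c C M →
  ∀ (F : E n → ℝ) (K B : ℝ), (∀ x y, |F x - F y| ≤ K * ‖x - y‖) → (∀ x, |F x| ≤ B) →
    ∀ a, Ex V (fun x => x a * F x) = Ex V (fun x => ∑ b, tau ψ x a b * pd b F x)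

end Vale.Agent.P254.MC
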