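import Vale.Agent.P254.MC.Defs
import Vale.Agent.P254.X.N1.Inv

/-! # P254/MC: `StmtInvc` (from `StmtSC`) and `StmtStartc`. -/

namespace Vale.Agent.P254.MC

open Vale.Agent.P227.M

variable {n : ℕ} {k c₀ C₀ m : ℝ} {c : E n → ℝ}

theorem clsC_iff : Clsc k c₀ C₀ m c ↔ X.N1.ClsC k c₀ C₀ m c :=
  ⟨fun h => ⟨h.reg, h.sc, h.zero, h.grad⟩, fun h => ⟨h.reg, h.sc, h.zero, h.grad⟩⟩

theorem TKc_eq_N1 (k : ℝ) (V c : E n → ℝ) : TKc k V c = X.N1.TKc k V c := rfl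

theorem itKc_eq_N1 (k c₀ : ℝ) (V : E n → ℝ) (i : ℕ) : itKc k c₀ V i = X.N1.itKc k c₀ V i := by
  induction i with
  | zero => rfl
  | succ i ih =>
    show TKc k V (itKc k c₀ V i) = X.N1.TKc k V (X.N1.itKc k c₀ V i)
    rw [ih]
    rfl

theorem stmtInvc (hSC : StmtSC) : StmtInvc := by
  intro n hn V c₀ C₀ hV
  obtain ⟨m, K₀, hm, hK, h⟩ := X.N1.stmtInvC hSC n hn V c₀ C₀ hV
  refine ⟨m, K₀, hm, hK, fun k hk => ⟨fun c hc => ?_, fun c hc => ?_⟩⟩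
  · exact clsC_iff.2 ((h k hk).1 c (clsC_iff.1 hc))
  · exact (h k hk).2 c (clsC_iff.1 hc)

theorem stmtStartc : StmtStartc := fun n hn k c₀ C₀ m hk hc0 hcC hm =>
  clsC_iff.2 (X.N1.stmtStartC570 n hn k c₀ C₀ m hk hc0 hcC hm)

end Vale.Agent.P254.MC
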