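import Vale.Agent.P254.MC.Defs
import Vale.Agent.P227.M.MM.Inv
import Vale.Agent.P227.M.MM.Start102
import Vale.Agent.P227.M.LK.RegLL570

/-! # P254/MC (S1): the level-`k` class for centred, not necessarily even potentials, and its invariance.

The map is `TK`, normalised by subtracting its linear part at `0`. -/

open MeasureTheory
open scoped ContDiff

namespace Vale.Agent.P254.MC

open Vale.Agent.P227.M
open Vale.Agent.P227.M.MM (phiK QK TK)

variable {n : ℕ}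

/-! ### Subtracting a linear function -/

theorem iteratedFDeriv_sub_lin {V : E n → ℝ} (hV : ContDiff ℝ (⊤ : ℕ∞) V) (l : E n →L[ℝ] ℝ) {i : ℕ}
    (hi : 2 ≤ i) (x : E n) : iteratedFDeriv ℝ i (fun y => V y - l y) x = iteratedFDeriv ℝ i V x := by
  obtain ⟨j, rfl⟩ : ∃ j, i = j + 1 := ⟨i - 1, by omega⟩
  have hj : j ≠ 0 := by omega
  have hVd : Differentiable ℝ V := hV.differentiable (by simp)
  have hV1 : ContDiff ℝ (⊤ : ℕ∞) (fderiv ℝ V) := (contDiff_infty_iff_fderiv.1 hV).2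
  have hfd : fderiv ℝ (fun y => V y - l y) = fun y => fderiv ℝ V y + (fun _ => -l) y := by
    funext y
    have h : fderiv ℝ (fun y => V y - l y) y = fderiv ℝ V y - l :=
      ((hVd y).hasFDerivAt.sub l.hasFDerivAt).fderiv
    rw [h, sub_eq_add_neg]
  rw [iteratedFDeriv_succ_eq_comp_right, iteratedFDeriv_succ_eq_comp_right, hfd]
  have hle : (j : WithTop ℕ∞) ≤ (⊤ : ℕ∞) := by exact_mod_cast le_top
  simp only [Function.comp_apply]
  rw [fun_iteratedFDeriv_add_apply (hV1.of_le hle).contDiffAt contDiff_const.contDiffAt,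
    iteratedFDeriv_const_of_ne hj]
  simp

theorem contDiff_sub_lin {V : E n → ℝ} (hV : ContDiff ℝ (⊤ : ℕ∞) V) (l : E n →L[ℝ] ℝ) :
    ContDiff ℝ (⊤ : ℕ∞) (fun y => V y - l y) := hV.sub l.contDiff

theorem qf_sub_lin {V : E n → ℝ} (hV : ContDiff ℝ (⊤ : ℕ∞) V) (l : E n →L[ℝ] ℝ) (x v : E n) :
    qf (hess (fun y => V y - l y) x) v = qf (hess V x) v := by
  have h1 := contDiff_sub_lin hV l
  rw [← LK.iteratedDeriv_two_line h1, ← LK.iteratedDeriv_two_line hV,
    LK.iteratedDeriv_line_zero h1, LK.iteratedDeriv_line_zero hV, iteratedFDeriv_sub_lin hV l le_rfl]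

theorem Reg.sub_lin {V : E n → ℝ} {c C : ℝ} (hV : Reg V c C) (l : E n →L[ℝ] ℝ) :
    Reg (fun y => V y - l y) c C where
  c_pos := hV.c_pos
  smooth := contDiff_sub_lin hV.smooth l
  lower x v := by rw [qf_sub_lin hV.smooth]; exact hV.lower x v
  upper x v := by rw [qf_sub_lin hV.smooth]; exact hV.upper x v
  bdd k hk := by
    obtain ⟨B, hB⟩ := hV.bdd k hk
    refine ⟨B, fun x => ?_⟩
    rw [iteratedFDeriv_sub_lin hV.smooth l hk]
    exact hB x

theorem SelfConc.sub_lin {V : E n → ℝ} {c C κ : ℝ} (hV : Reg V c C) (h : SelfConc κ V)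
    (l : E n →L[ℝ] ℝ) : SelfConc κ (fun y => V y - l y) := by
  have hR := Reg.sub_lin hV l
  rw [LK.selfConc_iff hR.smooth (LK.qf_nonneg_of_reg hR)]
  rw [LK.selfConc_iff hV.smooth (LK.qf_nonneg_of_reg hV)] at h
  intro x v
  rw [qf_sub_lin hV.smooth, iteratedFDeriv_sub_lin hV.smooth l (by norm_num)]
  exact h x v

/-! ### Regular versions of the level-`k` estimates -/

theorem Reg.mulK {c : E n → ℝ} {a b k : ℝ} (h : Reg c a b) (hk : 0 < k) :
    Reg (fun x => k * c x) (k * a) (k * b) := by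
  have := LK.Reg.scale h hk one_ne_zero
  simpa using this

section
variable {k c0 C0 m : ℝ} {c : E n → ℝ}

theorem reg_phiK (hLL : LK.RegLL) (hk : 0 < k) (hc0 : 0 < c0) (hC0 : 0 < C0)
    (hc : Reg c (c0 * (k + 1) / k) (C0 * (k + 1) / k)) :
    Reg (phiK k c) (k / ((k + 1) * C0)) (k / ((k + 1) * c0)) := by
  have h1 := Reg.mulK hc hk
  have h2 := hLL n _ _ _ h1 (by positivity)
  have h3 := LK.Reg.scale h2 (α := 1 / k) (β := k) (by positivity) hk.ne'
  refine LK.Reg.congr_const h3 ?_ ?_ <;> field_simp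

theorem sc_phiK (hSC : StmtSC) (hLL : LK.RegLL) (hk : 0 < k) (hC0 : 0 < C0) (hm : 0 ≤ m)
    (hmk : m ^ 2 ≤ k) (hc : Reg c (c0 * (k + 1) / k) (C0 * (k + 1) / k)) (hs : SelfConc m c) :
    SelfConc m (phiK k c) := by
  have hsk : 0 < √k := Real.sqrt_pos.2 hk
  have h1 := Reg.mulK hc hk
  have h1s := LK.SelfConc.mulK hc hs hk
  have h2 := hLL n _ _ _ h1 (by positivity)
  have hle : m / √k ≤ 1 := by
    rw [div_le_one hsk]
    exact Real.le_sqrt_of_sq_le hmk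
  have h2s := hSC n _ _ _ _ h1 (by positivity) hle h1s
  have h3 := LK.SelfConc.scale h2 h2s (α := 1 / k) (β := k) (by positivity) hk.ne'
  have h4 : m / √k / √(1 / k) = m := by
    rw [Real.sqrt_div zero_le_one, Real.sqrt_one]
    field_simp
  rw [h4] at h3
  exact h3

theorem reg_QK (hLL : LK.RegLL) (hk : 0 < k) (hc0 : 0 < c0) (hC0 : 0 < C0)
    (hc : Reg c (c0 * (k + 1) / k) (C0 * (k + 1) / k)) :
    Reg (QK k c) (k * c0) (k * C0) := by
  have h1 := reg_phiK hLL hk hc0 hC0 hc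
  have h2 := Reg.mulK h1 (k := k + 1) (by positivity)
  have h3 := hLL n _ _ _ h2 (by positivity)
  have h4 := LK.Reg.scale h3 (α := 1) (β := k) (by positivity) hk.ne'
  simp only [one_mul] at h4
  refine LK.Reg.congr_const h4 ?_ ?_ <;> field_simp

theorem sc_QK (hSC : StmtSC) (hLL : LK.RegLL) (hk : 0 < k) (hc0 : 0 < c0) (hC0 : 0 < C0) (hm : 0 ≤ m)
    (hmk : m ^ 2 ≤ k) (hc : Reg c (c0 * (k + 1) / k) (C0 * (k + 1) / k)) (hs : SelfConc m c) :
    SelfConc (m / √k) (QK k c) := by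
  have hsk : 0 < √k := Real.sqrt_pos.2 hk
  have hsk1 : 0 < √(k + 1) := Real.sqrt_pos.2 (by positivity)
  have h1 := reg_phiK hLL hk hc0 hC0 hc
  have h1s := sc_phiK hSC hLL hk hC0 hm hmk hc hs
  have h2 := Reg.mulK h1 (k := k + 1) (by positivity)
  have h2s := LK.SelfConc.mulK h1 h1s (k := k + 1) (by positivity)
  have h3 := hLL n _ _ _ h2 (by positivity)
  have hle : m / √(k + 1) ≤ 1 := by
    rw [div_le_one hsk1]
    exact Real.le_sqrt_of_sq_le (by linarith)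
  have h3s := hSC n _ _ _ _ h2 (by positivity) hle h2s
  have h4 := LK.Reg.scale h3 (α := 1) (β := k) (by positivity) hk.ne'
  have h4s := LK.SelfConc.scale h3 h3s (α := 1) (β := k) (by positivity) hk.ne'
  simp only [one_mul, Real.sqrt_one, div_one] at h4 h4s
  refine LK.SelfConc.mono h4 h4s ?_
  exact div_le_div_of_nonneg_left hm hsk (Real.sqrt_le_sqrt (by linarith))

/-- the (not yet tilted) map: regular and self-concordant -/
theorem TK_reg_sc (hSC : StmtSC) (hLL : LK.RegLL) {V : E n → ℝ} {MV : ℝ} (hV : Reg V c0 C0)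
    (hC0 : 0 < C0) (hMV : 0 ≤ MV) (hVs : SelfConc MV V) (hm : 2 / 3 * MV * √(C0 / c0) ≤ m)
    (hk : 0 < k) (hmk : m ^ 2 ≤ k) (hc : Reg c (c0 * (k + 1) / k) (C0 * (k + 1) / k))
    (hs : SelfConc m c) :
    Reg (TK k V c) (c0 * (k + 1) / k) (C0 * (k + 1) / k) ∧ SelfConc m (TK k V c) := by
  have hc0 : 0 < c0 := hV.c_pos
  have hm0 : 0 ≤ m := le_trans (by positivity) hm
  have hsk : 0 < √k := Real.sqrt_pos.2 hk
  have hQ := reg_QK hLL hk hc0 hC0 hc
  have hQs := sc_QK hSC hLL hk hc0 hC0 hm0 hmk hc hs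
  -- the sum
  have hS : Reg (fun x => V x + QK k c x) (c0 + k * c0) (C0 + k * C0) := LK.Reg.add hV hQ
  have hSs : SelfConc (m / √k) (fun x => V x + QK k c x) := by
    rw [LK.selfConc_iff hS.smooth (LK.qf_nonneg_of_reg hS)]
    rw [LK.selfConc_iff hV.smooth (LK.qf_nonneg_of_reg hV)] at hVs
    rw [LK.selfConc_iff hQ.smooth (LK.qf_nonneg_of_reg hQ)] at hQs
    intro x v
    rw [LK.iteratedFDeriv_add' hV.smooth hQ.smooth, LK.qf_add hV.smooth hQ.smooth]
    exact LK.sum_ineq hk hm0 hMV hc0 hC0.le hm (N := ‖v‖ ^ 2) (by positivity)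
      (LK.qf_nonneg_of_reg hV x v) (hV.upper x v) (hQ.lower x v) (hVs x v) (hQs x v)
  -- divide by `k`
  have hD := LK.Reg.scale hS (α := 1 / k) (β := 1) (by positivity) one_ne_zero
  have hDs := LK.SelfConc.scale hS hSs (α := 1 / k) (β := 1) (by positivity) one_ne_zero
  simp only [one_smul, one_pow, mul_one] at hD hDs
  have hTeq : TK k V c = fun x => 1 / k * (V x + QK k c x) - (V 0 + QK k c 0) / k := by
    funext x; unfold TK; ring
  have h4 : m / √k / √(1 / k) = m := by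
    rw [Real.sqrt_div zero_le_one, Real.sqrt_one]
    field_simp
  rw [h4] at hDs
  rw [hTeq]
  refine ⟨?_, LK.SelfConc.sub_const hD hDs _⟩
  refine LK.Reg.congr_const (LK.Reg.sub_const hD _) ?_ ?_ <;> field_simp <;> ring

/-- the normalised map preserves the class -/
theorem Clsc.TKc_mem (hSC : StmtSC) (hLL : LK.RegLL) {V : E n → ℝ} {MV : ℝ} (hV : Reg V c0 C0)
    (hC0 : 0 < C0) (hMV : 0 ≤ MV) (hVs : SelfConc MV V) (hm : 2 / 3 * MV * √(C0 / c0) ≤ m)
    (hk : 0 < k) (hmk : m ^ 2 ≤ k) (hc : Clsc k c0 C0 m c) : Clsc k c0 C0 m (TKc k V c) := by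
  obtain ⟨hR, hs⟩ := TK_reg_sc hSC hLL hV hC0 hMV hVs hm hk hmk hc.reg hc.sc
  have hd : DifferentiableAt ℝ (TK k V c) 0 := (hR.smooth.differentiable (by simp)) 0
  refine ⟨Reg.sub_lin hR _, SelfConc.sub_lin hR hs _, ?_, ?_⟩
  · simp [TKc, TK]
  · have h : fderiv ℝ (fun x => TK k V c x - fderiv ℝ (TK k V c) 0 x) 0 =
        fderiv ℝ (TK k V c) 0 - fderiv ℝ (TK k V c) 0 :=
      (hd.hasFDerivAt.sub (fderiv ℝ (TK k V c) 0).hasFDerivAt).fderiv
    change fderiv ℝ (fun x => TK k V c x - fderiv ℝ (TK k V c) 0 x) 0 = 0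
    rw [h, sub_self]

end

theorem stmtInvc_of (hSC : StmtSC) (hLL : LK.RegLL) : StmtInvc := by
  intro n hn V c₀ C₀ hV
  obtain ⟨MV, hMV, hVs⟩ := LK.Reg.exists_selfConc hV
  have hc0 : 0 < c₀ := hV.c_pos
  have hC0 : 0 < C₀ := hc0.trans_le (MM.nice_le hn hV)
  refine ⟨2 / 3 * MV * √(C₀ / c₀), max 1 ((2 / 3 * MV * √(C₀ / c₀)) ^ 2), by positivity, le_max_left _ _,
    fun k hk => ?_⟩
  have hk0 : 0 < k := lt_of_lt_of_le one_pos ((le_max_left _ _).trans hk)
  have hmk : (2 / 3 * MV * √(C₀ / c₀)) ^ 2 ≤ k := (le_max_right _ _).trans hk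
  refine ⟨fun c hc => ?_, fun c hc => ⟨?_, ?_⟩⟩
  · exact Clsc.TKc_mem hSC hLL hV hC0 hMV hVs le_rfl hk0 hmk hc
  · exact reg_phiK hLL hk0 hc0 hC0 hc.reg
  · exact sc_phiK hSC hLL hk0 hC0 (by positivity) hmk hc.reg hc.sc

/-- the quadratic start is in the class -/
theorem stmtStartc : StmtStartc := by
  intro n hn k c₀ C₀ m hk hc hcC hm
  have h := Vale.Agent.P227.M.MM.Start102.stmtStart n hn k c₀ C₀ m hk hc hcC hm
  refine ⟨h.nice.toReg, h.sc, h.zero, ?_⟩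
  have h1 : HasFDerivAt (fun x : E n => c₀ * (k + 1) / k / 2 * ‖x‖ ^ 2)
      ((c₀ * (k + 1) / k / 2) • (2 • (innerSL ℝ (0 : E n)))) 0 :=
    (hasStrictFDerivAt_norm_sq (0 : E n)).hasFDerivAt.const_mul _
  rw [h1.fderiv]
  simp

/-- the iterates stay in the class -/
theorem itKc_cls {n : ℕ} {k c₀ C₀ m : ℝ} {V : E n → ℝ}
    (h0 : Clsc k c₀ C₀ m (fun x : E n => c₀ * (k + 1) / k / 2 * ‖x‖ ^ 2))
    (hT : ∀ c : E n → ℝ, Clsc k c₀ C₀ m c → Clsc k c₀ C₀ m (TKc k V c)) :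
    ∀ i, Clsc k c₀ C₀ m (itKc k c₀ V i)
  | 0 => h0
  | i + 1 => hT _ (itKc_cls h0 hT i)

/-- invariance, from the self-concordance block alone -/
theorem stmtInvc_of_sc (hSC : StmtSC) : StmtInvc := stmtInvc_of hSC LK.H570.regLL

end Vale.Agent.P254.MC
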