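import Vale.Agent.P254.MC.Defs
import Vale.Agent.P227.M.Lim.L1

/-! P254, block MC (centred, not even): `C^{2,1}` functions with pinched Hessian and `G 0 = 0`
(copy of P227/M/Lim/L2 without evenness) -/

open MeasureTheory Set Metric Filter Topology
open scoped ENNReal NNReal

namespace Vale.Agent.P254.MC

variable {E : Type*} [NormedAddCommGroup E] [InnerProductSpace ℝ E] [FiniteDimensional ℝ E]

namespace C21c

variable {a b M : ℝ} {φ : E → ℝ} {G : E → E} {H : E → E →L[ℝ] E}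

theorem symm (h : C21c a b M φ G H) (y v w : E) : inner ℝ (H y v) w = inner ℝ (H y w) v := by
  have h1 : ∀ z, HasFDerivAt φ (innerSL ℝ (G z)) z := fun z => (h.grad z).hasFDerivAt
  have h2 : HasFDerivAt (fun z => innerSL ℝ (G z)) ((innerSL ℝ : E →L[ℝ] E →L[ℝ] ℝ).comp (H y)) y :=
    (innerSL ℝ : E →L[ℝ] E →L[ℝ] ℝ).hasFDerivAt.comp y (h.hess y)
  have h3 := second_derivative_symmetric (𝕜 := ℝ) (f := φ) (fun z => h1 z) h2 v w
  simpa using h3

theorem norm_le (h : C21c a b M φ G H) (ha : 0 ≤ a) (hb : 0 ≤ b) (y : E) : ‖H y‖ ≤ b := by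
  refine ContinuousLinearMap.opNorm_le_bound _ hb fun v => ?_
  have hpos : ∀ w, 0 ≤ inner ℝ (H y w) w := fun w => le_trans (by positivity) (h.lower y w)
  -- Cauchy-Schwarz for the form
  have hcs : (inner ℝ (H y v) (H y v) : ℝ) ^ 2 ≤ inner ℝ (H y v) v * inner ℝ (H y (H y v)) (H y v) := by
    set w := H y v with hw
    have hq : ∀ t : ℝ, 0 ≤ inner ℝ (H y v) v + 2 * t * inner ℝ (H y v) w + t ^ 2 * inner ℝ (H y w) w := by
      intro t
      have h1 := hpos (v + t • w)
      have h2 : inner ℝ (H y (v + t • w)) (v + t • w) =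
          inner ℝ (H y v) v + 2 * t * inner ℝ (H y v) w + t ^ 2 * inner ℝ (H y w) w := by
        simp only [map_add, map_smul, inner_add_left, inner_add_right, real_inner_smul_left, real_inner_smul_right]
        rw [h.symm y w v]
        ring
      linarith
    have hd := discrim_le_zero (a := inner ℝ (H y w) w) (b := 2 * inner ℝ (H y v) w) (c := inner ℝ (H y v) v)
      (fun t => by have := hq t; nlinarith [this])
    unfold discrim at hd
    have : (inner ℝ (H y v) w : ℝ) = inner ℝ w w := by rw [hw]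
    nlinarith
  have h1 : (inner ℝ (H y v) (H y v) : ℝ) = ‖H y v‖ ^ 2 := real_inner_self_eq_norm_sq _
  have h2 := h.upper y v
  have h3 := h.upper y (H y v)
  rw [h1] at hcs
  have h4 : (‖H y v‖ ^ 2) ^ 2 ≤ (b * ‖v‖ ^ 2) * (b * ‖H y v‖ ^ 2) :=
    hcs.trans (mul_le_mul h2 h3 (hpos _) (by positivity))
  rcases eq_or_lt_of_le (norm_nonneg (H y v)) with h5 | h5
  · rw [← h5]; positivity
  · have h6 : ‖H y v‖ ^ 2 ≤ (b * ‖v‖) ^ 2 := by
      have h7 : 0 < ‖H y v‖ ^ 2 := by positivity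
      have h8 : ‖H y v‖ ^ 2 * ‖H y v‖ ^ 2 ≤ (b * ‖v‖) ^ 2 * ‖H y v‖ ^ 2 := by nlinarith
      exact le_of_mul_le_mul_right h8 h7
    exact (pow_le_pow_iff_left₀ (norm_nonneg _) (by positivity) two_ne_zero).1 h6

theorem G_lip (h : C21c a b M φ G H) (ha : 0 ≤ a) (hb : 0 ≤ b) (y y' : E) : ‖G y - G y'‖ ≤ b * ‖y - y'‖ :=
  Convex.norm_image_sub_le_of_norm_hasFDerivWithin_le (s := Set.univ) (f := G) (f' := H)
    (fun z _ => (h.hess z).hasFDerivWithinAt) (fun z _ => h.norm_le ha hb z) convex_univ (mem_univ _) (mem_univ _)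

theorem G_zero (h : C21c a b M φ G H) : G 0 = 0 := h.zero

theorem G_norm_le (h : C21c a b M φ G H) (ha : 0 ≤ a) (hb : 0 ≤ b) (y : E) : ‖G y‖ ≤ b * ‖y‖ := by
  have := h.G_lip ha hb y 0
  rwa [h.G_zero, sub_zero, sub_zero] at this

theorem mono (h : C21c a b M φ G H) (y v : E) : a * ‖v‖ ^ 2 ≤ inner ℝ (G (y + v) - G y) v := by
  have hd : ∀ t ∈ Set.Icc (0 : ℝ) 1, HasDerivAt (fun t : ℝ => (inner ℝ (G (y + t • v)) v : ℝ)) (inner ℝ (H (y + t • v) v) v) t := by
    intro t _
    have h1 : HasDerivAt (fun t : ℝ => y + t • v) v t := by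
      simpa using ((hasDerivAt_id t).smul_const v).const_add y
    have h2 : HasDerivAt (fun t : ℝ => G (y + t • v)) (H (y + t • v) v) t := (h.hess (y + t • v)).comp_hasDerivAt t h1
    simpa using h2.inner ℝ (hasDerivAt_const t v)
  obtain ⟨c, -, hc2⟩ := exists_hasDerivAt_eq_slope (fun t : ℝ => (inner ℝ (G (y + t • v)) v : ℝ))
    (fun t => inner ℝ (H (y + t • v) v) v) (zero_lt_one) (fun t ht => (hd t ht).continuousAt.continuousWithinAt)
    (fun t ht => hd t (Ioo_subset_Icc_self ht))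
  have h3 := h.lower (y + c • v) v
  rw [hc2] at h3
  simp only [one_smul, zero_smul, add_zero, sub_zero, div_one] at h3
  rw [inner_sub_left]
  exact h3

theorem mono_upper (h : C21c a b M φ G H) (y v : E) : inner ℝ (G (y + v) - G y) v ≤ b * ‖v‖ ^ 2 := by
  have hd : ∀ t ∈ Set.Icc (0 : ℝ) 1, HasDerivAt (fun t : ℝ => (inner ℝ (G (y + t • v)) v : ℝ)) (inner ℝ (H (y + t • v) v) v) t := by
    intro t _
    have h1 : HasDerivAt (fun t : ℝ => y + t • v) v t := by
      simpa using ((hasDerivAt_id t).smul_const v).const_add y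
    have h2 : HasDerivAt (fun t : ℝ => G (y + t • v)) (H (y + t • v) v) t := (h.hess (y + t • v)).comp_hasDerivAt t h1
    simpa using h2.inner ℝ (hasDerivAt_const t v)
  obtain ⟨c, -, hc2⟩ := exists_hasDerivAt_eq_slope (fun t : ℝ => (inner ℝ (G (y + t • v)) v : ℝ))
    (fun t => inner ℝ (H (y + t • v) v) v) (zero_lt_one) (fun t ht => (hd t ht).continuousAt.continuousWithinAt)
    (fun t ht => hd t (Ioo_subset_Icc_self ht))
  have h3 := h.upper (y + c • v) v
  rw [hc2] at h3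
  simp only [one_smul, zero_smul, add_zero, sub_zero, div_one] at h3
  rw [inner_sub_left]
  exact h3

theorem phi_mvt (h : C21c a b M φ G H) (y v : E) : ∃ c ∈ Set.Ioo (0 : ℝ) 1, φ (y + v) - φ y = inner ℝ (G (y + c • v)) v := by
  have hd : ∀ t ∈ Set.Icc (0 : ℝ) 1, HasDerivAt (fun t : ℝ => φ (y + t • v)) (inner ℝ (G (y + t • v)) v) t := by
    intro t _
    have h1 : HasDerivAt (fun t : ℝ => y + t • v) v t := by
      simpa using ((hasDerivAt_id t).smul_const v).const_add y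
    have h2 := (h.grad (y + t • v)).hasFDerivAt.comp_hasDerivAt t h1
    simpa [Function.comp_def] using h2
  obtain ⟨c, hc1, hc2⟩ := exists_hasDerivAt_eq_slope (fun t : ℝ => φ (y + t • v))
    (fun t => inner ℝ (G (y + t • v)) v) (zero_lt_one) (fun t ht => (hd t ht).continuousAt.continuousWithinAt)
    (fun t ht => hd t (Ioo_subset_Icc_self ht))
  refine ⟨c, hc1, ?_⟩
  rw [hc2]
  simp

theorem phi_lower (h : C21c a b M φ G H) (ha : 0 ≤ a) (y : E) : φ 0 + a / 2 * ‖y‖ ^ 2 ≤ φ y := by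
  have hd : ∀ t ∈ Set.Icc (0 : ℝ) 1, HasDerivAt (fun t : ℝ => φ (t • y) - a / 2 * ‖y‖ ^ 2 * t ^ 2)
      (inner ℝ (G (t • y)) y - a * ‖y‖ ^ 2 * t) t := by
    intro t _
    have h1 : HasDerivAt (fun t : ℝ => t • y) y t := by
      simpa using ((hasDerivAt_id t).smul_const y)
    have h2 := (h.grad (t • y)).hasFDerivAt.comp_hasDerivAt t h1
    have h3 : HasDerivAt (fun t : ℝ => a / 2 * ‖y‖ ^ 2 * t ^ 2) (a * ‖y‖ ^ 2 * t) t := by
      refine ((hasDerivAt_pow 2 t).const_mul (a / 2 * ‖y‖ ^ 2)).congr_deriv ?_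
      norm_num
      ring
    have h4 : HasDerivAt (fun t : ℝ => φ (t • y)) (inner ℝ (G (t • y)) y) t := by simpa [Function.comp_def] using h2
    exact h4.sub h3
  obtain ⟨c, hc1, hc2⟩ := exists_hasDerivAt_eq_slope (fun t : ℝ => φ (t • y) - a / 2 * ‖y‖ ^ 2 * t ^ 2)
    (fun t => inner ℝ (G (t • y)) y - a * ‖y‖ ^ 2 * t) (zero_lt_one) (fun t ht => (hd t ht).continuousAt.continuousWithinAt)
    (fun t ht => hd t (Ioo_subset_Icc_self ht))
  have h3 := h.mono 0 (c • y)
  rw [h.G_zero, zero_add, sub_zero, norm_smul, real_inner_smul_right, mul_pow, Real.norm_eq_abs, sq_abs] at h3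
  have h4 : a * ‖y‖ ^ 2 * c ≤ inner ℝ (G (c • y)) y := by
    have hc : 0 < c := hc1.1
    have : c * (a * ‖y‖ ^ 2 * c) ≤ c * inner ℝ (G (c • y)) y := by nlinarith
    exact le_of_mul_le_mul_left this hc
  simp only [one_smul, zero_smul, one_pow, mul_one] at hc2
  have : (0 : ℝ) ≤ φ y - a / 2 * ‖y‖ ^ 2 - (φ 0 - a / 2 * ‖y‖ ^ 2 * 0 ^ 2) := by
    have h5 : (0 : ℝ) ≤ inner ℝ (G (c • y)) y - a * ‖y‖ ^ 2 * c := by linarith
    rw [hc2] at h5
    simpa using h5
  simp at this
  linarith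

theorem phi_upper (h : C21c a b M φ G H) (hb : 0 ≤ b) (y : E) : φ y ≤ φ 0 + b * ‖y‖ ^ 2 := by
  obtain ⟨c, hc1, hc2⟩ := h.phi_mvt 0 y
  have h3 := h.mono_upper 0 (c • y)
  rw [h.G_zero, zero_add, sub_zero, norm_smul, real_inner_smul_right, mul_pow, Real.norm_eq_abs, sq_abs] at h3
  rw [zero_add, zero_add] at hc2
  have hc : 0 < c := hc1.1
  have h4 : inner ℝ (G (c • y)) y ≤ b * ‖y‖ ^ 2 * c := by
    have : c * inner ℝ (G (c • y)) y ≤ c * (b * ‖y‖ ^ 2 * c) := by nlinarith
    exact le_of_mul_le_mul_left this hc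
  have h5 : b * ‖y‖ ^ 2 * c ≤ b * ‖y‖ ^ 2 := by
    have : 0 ≤ b * ‖y‖ ^ 2 := by positivity
    nlinarith [hc1.2]
  linarith

/-- quantitative first order Taylor for the gradient -/
theorem G_taylor (h : C21c a b M φ G H) (y v : E) : ‖G (y + v) - G y - H y v‖ ≤ M * ‖v‖ * ‖v‖ := by
  have h1 := Convex.norm_image_sub_le_of_norm_hasFDerivWithin_le (s := segment ℝ y (y + v)) (f := fun z => G z - H y z)
    (f' := fun z => H z - H y) (C := M * ‖v‖) (x := y) (y := y + v)
    (fun z _ => ((h.hess z).sub (H y).hasFDerivAt).hasFDerivWithinAt)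
    (fun z hz => (h.lip z y).trans ?_) (convex_segment _ _) (left_mem_segment _ _ _) (right_mem_segment _ _ _)
  · have h2 : G (y + v) - H y (y + v) - (G y - H y y) = G (y + v) - G y - H y v := by
      rw [map_add]; abel
    rw [h2, add_sub_cancel_left] at h1
    exact h1
  · have h0 : 0 ≤ M * ‖v‖ := by
      have := h.lip (y + v) y
      rw [add_sub_cancel_left] at this
      exact (norm_nonneg _).trans this
    rw [segment_eq_image'] at hz
    obtain ⟨t, ht, rfl⟩ := hz
    simp only [add_sub_cancel_left]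
    rw [norm_smul, Real.norm_eq_abs, abs_of_nonneg ht.1]
    nlinarith [ht.2]

theorem phi_taylor (h : C21c a b M φ G H) (ha : 0 ≤ a) (hb : 0 ≤ b) (y v : E) : |φ (y + v) - φ y - inner ℝ (G y) v| ≤ b * ‖v‖ * ‖v‖ := by
  obtain ⟨c, hc1, hc2⟩ := h.phi_mvt y v
  rw [hc2, ← inner_sub_left]
  refine (abs_real_inner_le_norm _ _).trans (mul_le_mul_of_nonneg_right ?_ (norm_nonneg _))
  refine (h.G_lip ha hb _ _).trans (mul_le_mul_of_nonneg_left ?_ hb)
  rw [add_sub_cancel_left, norm_smul, Real.norm_eq_abs, abs_of_pos hc1.1]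
  nlinarith [norm_nonneg v, hc1.2]

theorem injective (h : C21c a b M φ G H) (ha : 0 < a) : Function.Injective G := by
  intro y y' hyy
  have h1 := h.mono y' (y - y')
  rw [add_sub_cancel, hyy, sub_self, inner_zero_left] at h1
  have h2 : ‖y - y'‖ ^ 2 ≤ 0 := by
    by_contra hcon
    push Not at hcon
    nlinarith
  have h3 : ‖y - y'‖ = 0 := by
    have := le_antisymm h2 (sq_nonneg _)
    exact pow_eq_zero_iff two_ne_zero |>.1 this
  exact sub_eq_zero.1 (norm_eq_zero.1 h3)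

theorem continuous_phi (h : C21c a b M φ G H) : Continuous φ :=
  continuous_iff_continuousAt.2 fun y => (h.grad y).hasFDerivAt.continuousAt

theorem continuous_G (h : C21c a b M φ G H) : Continuous G :=
  continuous_iff_continuousAt.2 fun y => (h.hess y).continuousAt

theorem continuous_H (h : C21c a b M φ G H) : Continuous H := by
  rw [Metric.continuous_iff]
  intro y ε hε
  refine ⟨ε / (|M| + 1), by positivity, fun z hz => ?_⟩
  rw [dist_eq_norm] at hz ⊢
  have h1 := h.lip z y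
  have h2 : M * ‖z - y‖ ≤ (|M| + 1) * ‖z - y‖ := mul_le_mul_of_nonneg_right (by linarith [le_abs_self M]) (norm_nonneg _)
  have h3 : (|M| + 1) * ‖z - y‖ < (|M| + 1) * (ε / (|M| + 1)) := mul_lt_mul_of_pos_left hz (by positivity)
  have h4 : (|M| + 1) * (ε / (|M| + 1)) = ε := by field_simp
  linarith

theorem surjective (h : C21c a b M φ G H) (ha : 0 < a) : Function.Surjective G := by
  intro x
  have : ProperSpace E := FiniteDimensional.proper ℝ E
  have hcont : Continuous (fun y => φ y - inner ℝ x y) := h.continuous_phi.sub (by fun_prop)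
  have hlim : Tendsto (fun y => φ y - inner ℝ x y) (cocompact E) atTop := by
    have h1 : ∀ y : E, φ 0 - ‖x‖ ^ 2 / a + a / 4 * ‖y‖ ^ 2 ≤ φ y - inner ℝ x y := by
      intro y
      have h2 := h.phi_lower ha.le y
      have h3 := real_inner_le_norm x y
      have h4 : ‖x‖ * ‖y‖ ≤ ‖x‖ ^ 2 / a + a / 4 * ‖y‖ ^ 2 := by
        have : 0 ≤ (‖x‖ - a / 2 * ‖y‖) ^ 2 / a := by positivity
        have h5 : (‖x‖ - a / 2 * ‖y‖) ^ 2 / a = ‖x‖ ^ 2 / a - ‖x‖ * ‖y‖ + a / 4 * ‖y‖ ^ 2 := by
          field_simp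
          ring
        linarith
      linarith
    refine tendsto_atTop_mono h1 ?_
    have h6 : Tendsto (fun y : E => ‖y‖) (cocompact E) atTop := tendsto_norm_cocompact_atTop
    have h7 : Tendsto (fun y : E => a / 4 * ‖y‖ ^ 2) (cocompact E) atTop :=
      ((tendsto_pow_atTop two_ne_zero).comp h6).const_mul_atTop (by positivity)
    exact tendsto_atTop_add_const_left _ _ h7
  obtain ⟨y, hy⟩ := hcont.exists_forall_le hlim
  refine ⟨y, ?_⟩
  have hmin : IsLocalMin (fun y => φ y - inner ℝ x y) y := Filter.Eventually.of_forall hy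
  have hder : HasFDerivAt (fun y => φ y - inner ℝ x y) (innerSL ℝ (G y) - innerSL ℝ x) y :=
    (h.grad y).hasFDerivAt.sub (innerSL ℝ x).hasFDerivAt
  have h0 := hmin.hasFDerivAt_eq_zero hder
  refine ext_inner_right ℝ fun v => ?_
  have := DFunLike.congr_fun h0 v
  simp at this
  linarith

end C21c

end Vale.Agent.P254.MC
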