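import Vale.Agent.P254.MC.LimB
import Vale.Agent.P227.M.LIM.Push

/-! P254, block MC: passage to the limit in the push forward identity, Monge-Ampere -/

open MeasureTheory Set Metric Filter Topology
open scoped ENNReal NNReal

namespace Vale.Agent.P254.MC

variable {E : Type*} [NormedAddCommGroup E] [InnerProductSpace ℝ E] [FiniteDimensional ℝ E]

theorem integrable_gauss [MeasurableSpace E] [BorelSpace E] {a : ℝ} (ha : 0 < a) :
    Integrable (fun y : E => Real.exp (-(a * ‖y‖ ^ 2))) := by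
  have h1 := GaussianFourier.integrable_cexp_neg_mul_sq_norm_add (V := E) (b := (a : ℂ)) (by simpa using ha) 0 0
  have h2 := h1.norm
  refine h2.congr (Eventually.of_forall fun y => ?_)
  simp only [Complex.norm_exp]
  congr 1
  simp [← Complex.ofReal_pow]

theorem integral_gauss_pos [MeasurableSpace E] [BorelSpace E] {a : ℝ} (ha : 0 < a) :
    0 < ∫ y : E, Real.exp (-(a * ‖y‖ ^ 2)) := by
  refine (integral_pos_iff_support_of_nonneg (fun y => (Real.exp_pos _).le) (integrable_gauss ha)).2 ?_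
  have : Function.support (fun y : E => Real.exp (-(a * ‖y‖ ^ 2))) = Set.univ := by
    ext y
    simp [Real.exp_ne_zero]
  rw [this]
  exact isOpen_univ.measure_pos volume univ_nonempty

namespace C21c

variable {a b M : ℝ} {φ : E → ℝ} {G : E → E} {H : E → E →L[ℝ] E}

theorem exp_le (h : C21c a b M φ G H) (ha : 0 ≤ a) (y : E) :
    Real.exp (-φ y) ≤ Real.exp (-φ 0) * Real.exp (-(a / 2 * ‖y‖ ^ 2)) := by
  rw [← Real.exp_add]
  refine Real.exp_le_exp.2 ?_
  have := h.phi_lower ha y
  linarith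

theorem le_exp (h : C21c a b M φ G H) (hb : 0 ≤ b) (y : E) :
    Real.exp (-φ 0) * Real.exp (-(b * ‖y‖ ^ 2)) ≤ Real.exp (-φ y) := by
  rw [← Real.exp_add]
  refine Real.exp_le_exp.2 ?_
  have := h.phi_upper hb y
  linarith

theorem integrable [MeasurableSpace E] [BorelSpace E] (h : C21c a b M φ G H) (ha : 0 < a) :
    Integrable (fun y => Real.exp (-φ y)) := by
  refine ((integrable_gauss (E := E) (a := a / 2) (by positivity)).const_mul (Real.exp (-φ 0))).mono'
    ?_ (Eventually.of_forall fun y => ?_)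
  · exact (h.continuous_phi.neg.rexp).aestronglyMeasurable
  · rw [Real.norm_eq_abs, abs_of_pos (Real.exp_pos _)]
    exact h.exp_le ha.le y

end C21c

/-- **Limit theorem.** -/
theorem exists_ma [MeasurableSpace E] [BorelSpace E] {a b M : ℝ} (ha : 0 < a) (hb : 0 < b) {V : E → ℝ} (hV : Continuous V)
    (hVi : Integrable (fun x => Real.exp (-V x))) {φ : ℕ → E → ℝ} {G : ℕ → E → E} {H : ℕ → E → E →L[ℝ] E}
    (h : ∀ k, C21c a b M (φ k) (G k) (H k)) (hint : ∀ k, ∫ y, Real.exp (-φ k y) = ∫ x, Real.exp (-V x))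
    (hpush : ∀ f : E → ℝ, (∃ K, LipschitzWith K f) → (∃ B, ∀ x, |f x| ≤ B) →
      Tendsto (fun k => ∫ y, f (G k y) * Real.exp (-φ k y)) atTop (𝓝 (∫ x, f x * Real.exp (-V x)))) :
    ∃ ψ : ℕ → ℕ, StrictMono ψ ∧ ∃ (φ' : E → ℝ) (G' : E → E) (H' : E → E →L[ℝ] E), C21c a b M φ' G' H' ∧
      (∀ y, Tendsto (fun k => φ (ψ k) y) atTop (𝓝 (φ' y))) ∧ (∀ y, Tendsto (fun k => G (ψ k) y) atTop (𝓝 (G' y))) ∧
      (∀ y, Tendsto (fun k => H (ψ k) y) atTop (𝓝 (H' y))) ∧
      (∀ y, Real.exp (-φ' y) = Real.exp (-V (G' y)) * (H' y).det) := by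
  set Z := ∫ x, Real.exp (-V x) with hZ
  set I1 := ∫ y : E, Real.exp (-(b * ‖y‖ ^ 2)) with hI1
  set I2 := ∫ y : E, Real.exp (-(a / 2 * ‖y‖ ^ 2)) with hI2
  have hI1p : 0 < I1 := integral_gauss_pos hb
  have hI2p : 0 < I2 := integral_gauss_pos (by positivity)
  have hZp : 0 < Z := by
    rw [hZ, integral_pos_iff_support_of_nonneg (fun y => (Real.exp_pos _).le) hVi]
    have : Function.support (fun y : E => Real.exp (-V y)) = Set.univ := by
      ext y
      simp [Real.exp_ne_zero]
    rw [this]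
    exact isOpen_univ.measure_pos volume univ_nonempty
  -- bounds for φ k 0
  have h1 : ∀ k, Real.exp (-φ k 0) * I1 ≤ Z := by
    intro k
    rw [← hint k, hI1, ← integral_const_mul]
    exact integral_mono ((integrable_gauss hb).const_mul _) ((h k).integrable ha) (fun y => (h k).le_exp hb.le y)
  have h2 : ∀ k, Z ≤ Real.exp (-φ k 0) * I2 := by
    intro k
    rw [← hint k, hI2, ← integral_const_mul]
    exact integral_mono ((h k).integrable ha) ((integrable_gauss (by positivity)).const_mul _) (fun y => (h k).exp_le ha.le y)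
  have hB : ∀ k, |φ k 0| ≤ |Real.log (Z / I1)| + |Real.log (Z / I2)| := by
    intro k
    have h3 : -φ k 0 ≤ Real.log (Z / I1) := by
      rw [Real.le_log_iff_exp_le (by positivity), le_div_iff₀ hI1p]
      exact h1 k
    have h4 : Real.log (Z / I2) ≤ -φ k 0 := by
      rw [Real.log_le_iff_le_exp (by positivity), div_le_iff₀ hI2p]
      exact h2 k
    rw [abs_le]
    constructor
    · linarith [le_abs_self (Real.log (Z / I1)), abs_nonneg (Real.log (Z / I2))]
    · linarith [neg_abs_le (Real.log (Z / I2)), abs_nonneg (Real.log (Z / I1))]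
  obtain ⟨ψ, hψ, φ', G', H', hC, hφ, hG, hH⟩ := exists_limit ha.le hb.le h hB
  refine ⟨ψ, hψ, φ', G', H', hC, hφ, hG, hH, fun y => ?_⟩
  set B0 := |Real.log (Z / I1)| + |Real.log (Z / I2)| with hB0
  have hfd : fderiv ℝ G' = H' := funext fun z => (hC.hess z).fderiv
  have hG1 : ContDiff ℝ 1 G' := by
    rw [contDiff_one_iff_fderiv]
    refine ⟨fun z => (hC.hess z).differentiableAt, ?_⟩
    rw [hfd]
    exact hC.continuous_H
  have hm : ∀ x y, a * ‖x - y‖ ^ 2 ≤ inner ℝ (G' x - G' y) (x - y) := by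
    intro x y
    have := hC.mono y (x - y)
    rwa [add_sub_cancel] at this
  have key := Vale.Agent.P227.M.LIM.eq_mul_det_of_integral ha hG1 hm
    (f := fun y => Real.exp (-φ' y)) (h := fun x => Real.exp (-V x)) hC.continuous_phi.neg.rexp hV.neg.rexp ?_ y
  · rw [hfd] at key
    exact key
  · intro F hF hFc
    obtain ⟨K, hK⟩ := hF
    obtain ⟨BF, hBF⟩ := hFc.exists_bound_of_continuous hK.continuous
    have hBF' : ∀ x, |F x| ≤ BF := fun x => by simpa using hBF x
    have hlim1 := (hpush F ⟨K, hK⟩ ⟨BF, hBF'⟩).comp hψ.tendsto_atTop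
    have hlim2 : Tendsto (fun k => ∫ y, F (G (ψ k) y) * Real.exp (-φ (ψ k) y)) atTop
        (𝓝 (∫ y, F (G' y) * Real.exp (-φ' y))) := by
      refine tendsto_integral_of_dominated_convergence
        (fun y => BF * (Real.exp B0 * Real.exp (-(a / 2 * ‖y‖ ^ 2)))) (fun k => ?_) ?_ (fun k => ?_) ?_
      · exact ((hK.continuous.comp (h (ψ k)).continuous_G).mul (h (ψ k)).continuous_phi.neg.rexp).aestronglyMeasurable
      · exact ((integrable_gauss (by positivity)).const_mul _).const_mul _
      · refine Eventually.of_forall fun y => ?_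
        rw [norm_mul, Real.norm_eq_abs, Real.norm_eq_abs, abs_of_pos (Real.exp_pos _)]
        refine mul_le_mul (hBF' _) (((h (ψ k)).exp_le ha.le y).trans ?_) (Real.exp_pos _).le ((abs_nonneg _).trans (hBF' 0))
        refine mul_le_mul_of_nonneg_right (Real.exp_le_exp.2 ?_) (Real.exp_pos _).le
        have := hB (ψ k)
        rw [abs_le] at this
        linarith [this.1]
      · refine Eventually.of_forall fun y => ?_
        have hc : Tendsto (fun k => F (G (ψ k) y)) atTop (𝓝 (F (G' y))) := (hK.continuous.tendsto _).comp (hG y)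
        have he : Tendsto (fun k => Real.exp (-φ (ψ k) y)) atTop (𝓝 (Real.exp (-φ' y))) :=
          (Real.continuous_exp.tendsto _).comp (hφ y).neg
        exact hc.mul he
    exact tendsto_nhds_unique hlim2 hlim1

end Vale.Agent.P254.MC
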