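import Vale.Agent.P254.NS.LimC.Lim
import Vale.Agent.P254.MC.Defs
import Vale.Agent.P227.M.DUAL.ToMM
import Vale.Agent.P227.M.Bas

/-! # P254/MC/Right5: `StmtLKc → StmtMMc` (limit `k → ∞` and Legendre transform, no evenness). -/

noncomputable section

open MeasureTheory Filter Topology Set
open scoped RealInnerProductSpace NNReal

namespace Vale.Agent.P254.MC.Right5

open Vale.Agent.P227.M Vale.Agent.P227.M.Dif Vale.Agent.P227.M.DUAL
open Vale.Agent.P254.NS.LimC (Good bump bump_nonneg bump_le bump_lip continuous_bump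
  exists_limit monge_ampere)

section Conv

variable {E : Type*} [NormedAddCommGroup E] [InnerProductSpace ℝ E] [FiniteDimensional ℝ E]
  [MeasurableSpace E] [BorelSpace E]

/-- moment map with the pointwise convergence of the Hessians. -/
theorem exists_moment_map_conv {a A M : ℝ} (ha : 0 < a) (hA : 0 < A) (hM : 0 ≤ M)
    {φ : ℕ → E → ℝ} {g : ℕ → E → E} {T : ℕ → E → (E →L[ℝ] E)}
    (h : ∀ k, Good a A M (φ k) (g k) (T k)) {c₁ c₂ : ℝ} (hc₁ : 0 < c₁)
    (h1 : ∀ k, c₁ ≤ ∫ y, Real.exp (-φ k y)) (h2 : ∀ k, ∫ y, Real.exp (-φ k y) ≤ c₂)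
    {V : E → ℝ} (hV : Continuous V)
    (hpush : ∀ (x₀ : E) (δ : ℝ), 0 < δ →
      Tendsto (fun k => ∫ y, bump x₀ δ (g k y) * Real.exp (-φ k y)) atTop
        (𝓝 (∫ x, bump x₀ δ x * Real.exp (-V x)))) :
    ∃ (ψ : ℕ → ℕ) (φ' : E → ℝ) (g' : E → E) (T' : E → (E →L[ℝ] E)), StrictMono ψ ∧
      Good a A M φ' g' T' ∧ (∀ y, Tendsto (fun k => T (ψ k) y) atTop (𝓝 (T' y))) ∧
      (∀ y, Real.exp (-φ' y) = Real.exp (-V (g' y)) * |(T' y).det|) := by
  set C := |Real.log (c₁ / ∫ y : E, Real.exp (-(a / 2 * ‖y‖ ^ 2)))| +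
      |Real.log (c₂ / ∫ y : E, Real.exp (-(A * ‖y‖ ^ 2)))| with hC
  have hφ0 : ∀ k, |φ k 0| ≤ C := fun k => (h k).abs_φ_zero_le ha hA hc₁ (h1 k) (h2 k)
  obtain ⟨ψ, hψ, φ', g', T', t1, t2, t3, hG⟩ := exists_limit hM h hφ0
  have ha2 := half_pos ha
  have hdom : ∀ k y, Real.exp (-φ k y) ≤ Real.exp C * Real.exp (-(a / 2 * ‖y‖ ^ 2)) := by
    intro k y
    refine ((h k).exp_le y).trans ?_
    have := neg_abs_le (φ k 0)
    have := hφ0 k
    gcongr
    linarith
  have e2 : ∀ (x₀ : E) (δ : ℝ), 0 < δ →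
      Tendsto (fun k => ∫ y, bump x₀ δ (g (ψ k) y) * Real.exp (-φ (ψ k) y)) atTop
        (𝓝 (∫ y, bump x₀ δ (g' y) * Real.exp (-φ' y))) := by
    intro x₀ δ hδ
    refine tendsto_integral_of_dominated_convergence
      (fun y => δ * (Real.exp C * Real.exp (-(a / 2 * ‖y‖ ^ 2))))
      (fun k => (((continuous_bump x₀ δ).comp (h (ψ k)).continuous_g).mul
        (h (ψ k)).continuous_φ.neg.rexp).aestronglyMeasurable)
      (((Vale.Agent.P254.NS.LimC.integrable_gauss ha2).const_mul _).const_mul _)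
      (fun k => Filter.Eventually.of_forall fun y => ?_)
      (Filter.Eventually.of_forall fun y => ?_)
    · rw [Real.norm_eq_abs, abs_of_nonneg (mul_nonneg (bump_nonneg _ _ _) (Real.exp_pos _).le)]
      exact mul_le_mul (bump_le _ hδ.le _) (hdom (ψ k) y) (Real.exp_pos _).le hδ.le
    · exact (((continuous_bump x₀ δ).tendsto _).comp (t2 y)).mul
        ((Real.continuous_exp.tendsto _).comp (t1 y).neg)
  have e3 : ∀ (x₀ : E) (δ : ℝ), 0 < δ →
      ∫ y, bump x₀ δ (g' y) * Real.exp (-φ' y) = ∫ x, bump x₀ δ x * Real.exp (-V x) :=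
    fun x₀ δ hδ => tendsto_nhds_unique (e2 x₀ δ hδ) ((hpush x₀ δ hδ).comp hψ.tendsto_atTop)
  have hint : ∀ (x₀ : E) (δ : ℝ), 0 < δ →
      Integrable fun y => bump x₀ δ (g' y) * Real.exp (-φ' y) := by
    intro x₀ δ hδ
    refine ((hG.integrable_exp ha).const_mul δ).mono'
      (((continuous_bump x₀ δ).comp hG.continuous_g).mul
        hG.continuous_φ.neg.rexp).aestronglyMeasurable (Filter.Eventually.of_forall fun y => ?_)
    rw [Real.norm_eq_abs, abs_of_nonneg (mul_nonneg (bump_nonneg _ _ _) (Real.exp_pos _).le)]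
    exact mul_le_mul_of_nonneg_right (bump_le _ hδ.le _) (Real.exp_pos _).le
  refine ⟨ψ, φ', g', T', hψ, hG, t3, fun y => ?_⟩
  exact monge_ampere (p := fun y => Real.exp (-φ' y)) (q := fun x => Real.exp (-V x)) ha hG.hess
      (hG.continuous_T hM) (hG.surjective ha) hG.norm_g_ge hG.continuous_φ.neg.rexp hV.neg.rexp
      e3 hint y

end Conv

variable {n : ℕ}

/-- symmetry of the Hessian of a `C21c` triple -/
lemma symm_of {φ : E n → ℝ} {G : E n → E n} {H : E n → E n →L[ℝ] E n}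
    (h1 : ∀ y, HasFDerivAt φ (innerSL ℝ (G y)) y) (h2 : ∀ y, HasFDerivAt G (H y) y) (y v w : E n) :
    ⟪H y v, w⟫ = ⟪v, H y w⟫ := by
  have h3 : HasFDerivAt (fun y => innerSL ℝ (G y)) ((innerSL ℝ : E n →L[ℝ] E n →L[ℝ] ℝ).comp (H y)) y :=
    (innerSL ℝ : E n →L[ℝ] E n →L[ℝ] ℝ).hasFDerivAt.comp y (h2 y)
  have h4 := second_derivative_symmetric h1 h3 v w
  simp only [ContinuousLinearMap.comp_apply, innerSL_apply_apply] at h4
  rw [h4, real_inner_comm]

/-- **From the limit potential to `MMc`.** -/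
theorem mmc_of_limit {V phi : E n → ℝ} {g : E n → E n} {T : E n → E n →L[ℝ] E n} {a A M : ℝ}
    (hg : GMap g T a A) (hA : 0 < A) (hphi : ∀ y, HasFDerivAt phi (innerSL ℝ (g y)) y)
    (hM : ∀ y z, ‖T y - T z‖ ≤ M * ‖y - z‖)
    (hma : ∀ y, Real.exp (-phi y) = Real.exp (-V (g y)) * (T y).det) :
    MMc (leg hg phi) V A⁻¹ a⁻¹ (M * (a⁻¹) ^ 3) where
  c_pos := inv_pos.2 hA
  C2 := contDiff_leg hg hphi hM
  lower := fun x v => by
    rw [qf_hess_of_grad (hasFDerivAt_leg hg hphi) (S := SS hg) hg.inv_der]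
    exact SS_lower hg hA x v
  upper := fun x v => by
    rw [qf_hess_of_grad (hasFDerivAt_leg hg hphi) (S := SS hg) hg.inv_der]
    exact SS_upper hg x v
  lip := fun i j x y => by
    rw [hess_of_grad (hasFDerivAt_leg hg hphi) (S := SS hg) hg.inv_der,
      hess_of_grad (hasFDerivAt_leg hg hphi) (S := SS hg) hg.inv_der]
    have h1 : SS hg x (ei i) j - SS hg y (ei i) j = ((SS hg x - SS hg y) (ei i)) j := by simp
    rw [h1]
    have h2 : |((SS hg x - SS hg y) (ei i)) j| ≤ ‖(SS hg x - SS hg y) (ei i)‖ := by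
      have := PiLp.norm_apply_le ((SS hg x - SS hg y) (ei i)) j
      simpa using this
    have h3 : ‖(SS hg x - SS hg y) (ei i)‖ ≤ ‖SS hg x - SS hg y‖ * 1 := by
      have := (SS hg x - SS hg y).le_opNorm (ei i)
      simpa [ei] using this
    have h4 := SS_lip hg hM x y
    linarith
  ma := fun x => by
    have hd := hg.det_pos (hg.inv x)
    rw [det_hess_of_grad (hasFDerivAt_leg hg hphi) (S := SS hg) hg.inv_der, det_SS, Real.log_inv]
    have h1 : ∑ i, x i * pd i (leg hg phi) x = ⟪x, hg.inv x⟫ := by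
      rw [PiLp.inner_apply]
      refine Finset.sum_congr rfl fun i _ => ?_
      rw [pd_of_grad (hasFDerivAt_leg hg hphi)]
      simp
      ring
    rw [h1, leg]
    have h2 := hma (hg.inv x)
    rw [hg.g_inv] at h2
    have h3 := congrArg Real.log h2
    rw [Real.log_exp, Real.log_mul (Real.exp_ne_zero _) hd.ne', Real.log_exp] at h3
    linarith

/-- `n = 0` -/
lemma mmc_zero (V : E 0 → ℝ) {c C : ℝ} (hc : 0 < c) : MMc (fun _ => -V 0) V c C 0 where
  c_pos := hc
  C2 := contDiff_const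
  lower := fun x v => by
    rw [Subsingleton.elim v 0]; simp [qf]
  upper := fun x v => by
    rw [Subsingleton.elim v 0]; simp [qf]
  lip := fun i => i.elim0
  ma := fun x => by
    rw [Subsingleton.elim x 0]; simp

/-- one approximate potential as a `Good` triple -/
lemma good_of {φ : E n → ℝ} {G : E n → E n} {H : E n → E n →L[ℝ] E n} {a a' A M M' : ℝ}
    (h : C21c a A M φ G H) (ha : 0 < a') (haa : a' ≤ a) (hA : 0 ≤ A) (hMM : M ≤ M') :
    Good a' A M' φ G H := by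
  have hgr : ∀ y, HasFDerivAt φ (innerSL ℝ (G y)) y := fun y => (h.grad y).hasFDerivAt
  have hs := symm_of hgr h.hess
  have hlow' : ∀ y v, a' * ‖v‖ ^ 2 ≤ ⟪H y v, v⟫ := fun y v =>
    (mul_le_mul_of_nonneg_right haa (sq_nonneg _)).trans (h.lower y v)
  refine ⟨hgr, h.hess, h.zero, hlow', fun y => ?_, fun y z => (h.lip y z).trans
    (mul_le_mul_of_nonneg_right hMM (norm_nonneg _))⟩
  refine ContinuousLinearMap.opNorm_le_bound _ hA fun v => ?_
  exact GMap.norm_apply_le (hs y) (fun v => (by positivity : 0 ≤ a' * ‖v‖ ^ 2).trans (hlow' y v))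
    (h.upper y) v

/-- the bump functions are controlled by the test class of `StmtLKc` -/
lemma bump_test (x₀ : E n) {δ : ℝ} (hδ : 0 < δ) {φ V : E n → ℝ} {G : E n → E n} {ε : ℝ}
    (h : ∀ F : E n → ℝ, LipschitzWith 1 F → (∀ x, |F x| ≤ 1) →
      |(∫ y, F (G y) * Real.exp (-φ y)) - ∫ x, F x * Real.exp (-V x)| ≤ ε) :
    |(∫ y, bump x₀ δ (G y) * Real.exp (-φ y)) - ∫ x, bump x₀ δ x * Real.exp (-V x)|
      ≤ (1 + δ) * ε := by
  have hd : 0 < 1 + δ := by linarith
  have h1 := h (fun x => (1 + δ)⁻¹ * bump x₀ δ x) (LipschitzWith.of_dist_le_mul fun x y => by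
      rw [Real.dist_eq, dist_eq_norm, ← mul_sub, abs_mul, abs_of_nonneg (inv_nonneg.2 hd.le),
        inv_mul_le_iff₀ hd]
      have h3 := bump_lip x₀ δ x y
      have h4 := norm_nonneg (x - y)
      simp only [NNReal.coe_one, one_mul]
      nlinarith) (fun x => by
      rw [abs_of_nonneg (mul_nonneg (inv_nonneg.2 hd.le) (bump_nonneg _ _ _)),
        inv_mul_le_iff₀ hd]
      have := bump_le x₀ hδ.le x
      linarith)
  have e1 : (∫ y, ((1 + δ)⁻¹ * bump x₀ δ (G y)) * Real.exp (-φ y))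
      = (1 + δ)⁻¹ * ∫ y, bump x₀ δ (G y) * Real.exp (-φ y) := by
    rw [← integral_const_mul]
    congr 1
    funext y
    ring
  have e2 : (∫ x, ((1 + δ)⁻¹ * bump x₀ δ x) * Real.exp (-V x))
      = (1 + δ)⁻¹ * ∫ x, bump x₀ δ x * Real.exp (-V x) := by
    rw [← integral_const_mul]
    congr 1
    funext y
    ring
  rw [e1, e2, ← mul_sub, abs_mul, abs_of_nonneg (inv_nonneg.2 hd.le), inv_mul_le_iff₀ hd] at h1
  exact h1

/-- **right half of the centred moment map** -/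
theorem stmtMMc_of (hLK : StmtLKc) : StmtMMc := by
  intro n V c C hV hcen
  rcases Nat.eq_zero_or_pos n with hn | hn
  · subst hn
    exact ⟨_, _, mmc_zero V hV.c_pos⟩
  have hc := hV.c_pos
  have hcC : c ≤ C := by
    have h1 := (hV.lower 0 (ei ⟨0, hn⟩)).trans (hV.upper 0 (ei ⟨0, hn⟩))
    simpa [ei] using h1
  have hC : 0 < C := lt_of_lt_of_le hc hcC
  obtain ⟨M, hM⟩ := hLK n hn V c C hV hcen
  have hε : ∀ k : ℕ, (0 : ℝ) < 1 / ((k : ℝ) + 2) := fun k => by positivity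
  have hhalf : ∀ k : ℕ, (1 : ℝ) / ((k : ℝ) + 2) ≤ 1 / 2 := fun k =>
    one_div_le_one_div_of_le (by norm_num) (by linarith [k.cast_nonneg (α := ℝ)])
  choose φ G H hφ hφ1 hφp using fun k : ℕ => hM _ (hε k) (lt_of_le_of_lt (hhalf k) (by norm_num))
  have hC' : 0 < C⁻¹ := inv_pos.2 hC
  have hc' : 0 < c⁻¹ := inv_pos.2 hc
  have hgood : ∀ k, Good (C⁻¹ / 2) c⁻¹ |M| (φ k) (G k) (H k) := fun k =>
    good_of (hφ k) (half_pos hC') (by nlinarith [hhalf k]) hc'.le (le_abs_self M)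
  have hεt : Tendsto (fun k : ℕ => (1 : ℝ) / ((k : ℝ) + 2)) atTop (𝓝 0) := by
    have h1 : Tendsto (fun k : ℕ => (k : ℝ) + 2) atTop atTop :=
      tendsto_atTop_add_const_right _ _ tendsto_natCast_atTop_atTop
    exact (tendsto_const_nhds (x := (1 : ℝ))).div_atTop h1
  have hpush : ∀ (x₀ : E n) (δ : ℝ), 0 < δ →
      Tendsto (fun k => ∫ y, bump x₀ δ (G k y) * Real.exp (-φ k y)) atTop
        (𝓝 (∫ x, bump x₀ δ x * Real.exp (-V x))) := by
    intro x₀ δ hδ
    rw [tendsto_iff_dist_tendsto_zero]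
    refine squeeze_zero (fun k => dist_nonneg) (fun k => ?_)
      (by simpa using hεt.const_mul (1 + δ) : Tendsto (fun k : ℕ => (1 + δ) * (1 / ((k : ℝ) + 2))) atTop (𝓝 0))
    rw [Real.dist_eq]
    exact bump_test x₀ hδ (hφp k)
  obtain ⟨ψ, φ', g', T', hψ, hG, hTt, hma⟩ := exists_moment_map_conv (half_pos hC') hc' (abs_nonneg M)
    hgood hV.Z_pos (fun k => (hφ1 k).ge) (fun k => (hφ1 k).le) hV.smooth.continuous hpush
  have hin : ∀ y v w, Tendsto (fun k => ⟪H (ψ k) y v, w⟫) atTop (𝓝 ⟪T' y v, w⟫) := by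
    intro y v w
    have h3 : Tendsto (fun k => H (ψ k) y v) atTop (𝓝 (T' y v)) :=
      ((ContinuousLinearMap.apply ℝ (E n) v).continuous.tendsto _).comp (hTt y)
    exact h3.inner tendsto_const_nhds
  have hg : GMap g' T' C⁻¹ c⁻¹ :=
    { pos := hC'
      der := hG.hess
      cont := hG.continuous_T (abs_nonneg M)
      lower := fun y v => by
        have h3 : Tendsto (fun k : ℕ => (1 - 1 / (((ψ k : ℕ) : ℝ) + 2)) * C⁻¹ * ‖v‖ ^ 2) atTop
            (𝓝 ((1 - 0) * C⁻¹ * ‖v‖ ^ 2)) :=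
          ((tendsto_const_nhds.sub (hεt.comp hψ.tendsto_atTop)).mul_const _).mul_const _
        have h4 := le_of_tendsto_of_tendsto' h3 (hin y v v) (fun k => (hφ (ψ k)).lower y v)
        simpa using h4
      upper := fun y v => le_of_tendsto' (hin y v v) (fun k => (hφ (ψ k)).upper y v)
      symm := symm_of hG.grad hG.hess }
  have h6 := mmc_of_limit (V := V) hg hc' hG.grad hG.lip (fun y => by
    rw [hma y, abs_of_pos (hg.det_pos y)])
  rw [inv_inv, inv_inv] at h6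
  exact ⟨_, _, h6⟩

end Vale.Agent.P254.MC.Right5
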