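import Vale.Agent.P254.MC.LimC
import Vale.Agent.P254.MC.Dual575
import Vale.Agent.P227.M.Bas

/-! P254, block MC, right half: `StmtLKc → StmtMMc` (helper343; after helper811's LIM811) -/

open MeasureTheory Filter
open scoped Topology

namespace Vale.Agent.P254.MC

open Vale.Agent.P227.M


/-- output of LIM: the `C^{2,1}` moment map in `y`-space -/
def StmtLIMc : Prop := ∀ (n : ℕ), 0 < n → ∀ (V : E n → ℝ) (c₀ C₀ : ℝ), Reg V c₀ C₀ → Centred V →
  ∃ (M : ℝ) (φ : E n → ℝ) (G : E n → E n) (H : E n → E n →L[ℝ] E n),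
    C21c C₀⁻¹ c₀⁻¹ M φ G H ∧ ∀ y, Real.exp (-φ y) = Real.exp (-V (G y)) * |(H y).det|

theorem stmtLIMc_of (h : StmtLKc) : StmtLIMc := by
  intro n hn V c₀ C₀ hV hV0
  obtain ⟨M, hM⟩ := h n hn V c₀ C₀ hV hV0
  have hc : 0 < c₀ := hV.c_pos
  have hC : 0 < C₀ := hc.trans_le (MM.nice_le hn hV)
  have he : ∀ j : ℕ, (0 : ℝ) < 1 / ((j : ℝ) + 2) ∧ 1 / ((j : ℝ) + 2) ≤ 1 / 2 := by
    intro j
    have : (0 : ℝ) ≤ j := Nat.cast_nonneg j
    constructor
    · positivity
    · exact one_div_le_one_div_of_le two_pos (by linarith)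
  choose φ G H hC21c hint hF using fun j : ℕ => hM (1 / ((j : ℝ) + 2)) (he j).1 (by linarith [(he j).2])
  have he0 : Tendsto (fun j : ℕ => 1 / ((j : ℝ) + 2)) atTop (𝓝 0) := by
    have h1 : Tendsto (fun j : ℕ => ((j : ℝ) + 2)) atTop atTop :=
      tendsto_atTop_add_const_right _ _ tendsto_natCast_atTop_atTop
    simpa [one_div, Function.comp_def] using tendsto_inv_atTop_zero.comp h1
  have ha : 0 < 1 / 2 * C₀⁻¹ := by positivity
  have hb : 0 < c₀⁻¹ := by positivity
  have hC' : ∀ j, C21c (1 / 2 * C₀⁻¹) c₀⁻¹ M (φ j) (G j) (H j) := by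
    intro j
    refine ⟨(hC21c j).grad, (hC21c j).hess, fun y v => ?_, (hC21c j).upper, (hC21c j).lip, (hC21c j).zero⟩
    refine le_trans ?_ ((hC21c j).lower y v)
    have h1 : 1 / 2 * C₀⁻¹ ≤ (1 - 1 / ((j : ℝ) + 2)) * C₀⁻¹ :=
      mul_le_mul_of_nonneg_right (by linarith [(he j).2]) (by positivity)
    exact mul_le_mul_of_nonneg_right h1 (by positivity)
  have hVc : Continuous V := hV.smooth.continuous
  have hVi : Integrable (fun x => Real.exp (-V x)) := by
    by_contra hcon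
    have h0 := integral_undef hcon
    have h1 := hint 0
    rw [h0] at h1
    have h2 : 0 < ∫ y, Real.exp (-φ 0 y) := by
      rw [integral_pos_iff_support_of_nonneg (fun y => (Real.exp_pos _).le) ((hC' 0).integrable ha)]
      have : Function.support (fun y : E n => Real.exp (-φ 0 y)) = Set.univ := by
        ext y
        simp [Real.exp_ne_zero]
      rw [this]
      exact isOpen_univ.measure_pos volume Set.univ_nonempty
    exact h2.ne' h1
  obtain ⟨ψ, hψ, φ', G', H', hC2, -, -, hH, hma⟩ := exists_ma ha hb hVc hVi hC' hint (by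
    intro f hfK hfB
    obtain ⟨K, hK⟩ := hfK
    obtain ⟨B, hB⟩ := hfB
    have hB0 : 0 ≤ B := (abs_nonneg _).trans (hB 0)
    set l : ℝ := K + B + 1 with hl
    have hl0 : 0 < l := by positivity
    -- the rescaled function
    have h1 : LipschitzWith 1 (fun x => l⁻¹ * f x) := by
      refine LipschitzWith.of_dist_le_mul fun x y => ?_
      rw [Real.dist_eq, ← mul_sub, abs_mul, abs_of_pos (by positivity : 0 < l⁻¹)]
      have h2 := hK.dist_le_mul x y
      rw [Real.dist_eq] at h2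
      have h3 : (K : ℝ) * dist x y ≤ l * dist x y := mul_le_mul_of_nonneg_right (by linarith) dist_nonneg
      rw [inv_mul_le_iff₀ hl0]
      simpa using h2.trans h3
    have h2 : ∀ x, |l⁻¹ * f x| ≤ 1 := by
      intro x
      rw [abs_mul, abs_of_pos (by positivity : 0 < l⁻¹), inv_mul_le_iff₀ hl0, mul_one]
      have := hB x
      have hK0 : (0 : ℝ) ≤ K := K.2
      linarith
    rw [tendsto_iff_dist_tendsto_zero]
    refine squeeze_zero (fun _ => dist_nonneg) (g := fun j : ℕ => l * (1 / ((j : ℝ) + 2))) (fun j => ?_) ?_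
    · have h3 := hF j (fun x => l⁻¹ * f x) h1 h2
      have h4 : (∫ y, l⁻¹ * f (G j y) * Real.exp (-φ j y)) = l⁻¹ * ∫ y, f (G j y) * Real.exp (-φ j y) := by
        rw [← integral_const_mul]
        refine integral_congr_ae (Eventually.of_forall fun y => ?_)
        simp only
        ring
      have h5 : (∫ x, l⁻¹ * f x * Real.exp (-V x)) = l⁻¹ * ∫ x, f x * Real.exp (-V x) := by
        rw [← integral_const_mul]
        refine integral_congr_ae (Eventually.of_forall fun y => ?_)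
        simp only
        ring
      rw [h4, h5, ← mul_sub, abs_mul, abs_of_pos (by positivity : 0 < l⁻¹), inv_mul_le_iff₀ hl0] at h3
      rw [Real.dist_eq]
      exact h3
    · simpa using he0.const_mul l)
  refine ⟨M, φ', G', H', ⟨hC2.grad, hC2.hess, fun y v => ?_, hC2.upper, hC2.lip, hC2.zero⟩, fun y => ?_⟩
  · have h1 : Tendsto (fun j => (inner ℝ (H (ψ j) y v) v : ℝ)) atTop (𝓝 (inner ℝ (H' y v) v)) :=
      Tendsto.inner (((ContinuousLinearMap.apply ℝ (E n) v).continuous.tendsto _).comp (hH y)) tendsto_const_nhds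
    have h2 : Tendsto (fun j => (1 - 1 / (((ψ j : ℕ) : ℝ) + 2)) * C₀⁻¹ * ‖v‖ ^ 2) atTop (𝓝 ((1 - 0) * C₀⁻¹ * ‖v‖ ^ 2)) :=
      (((he0.comp hψ.tendsto_atTop).const_sub 1).mul_const _).mul_const _
    have h3 := le_of_tendsto_of_tendsto' h2 h1 fun j => (hC21c (ψ j)).lower y v
    simpa using h3
  · rw [hma y]
    have h1 : 0 < (H' y).det := Vale.Agent.P227.M.LIM.det_pos_of_coercive ha (H' y) (fun v => hC2.lower y v)
    rw [abs_of_pos h1]

theorem mmc_zero {V : E 0 → ℝ} {c C : ℝ} (h : Reg V c C) : MMc (fun x => -V x) V c C 0 := by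
  have hz : ∀ v : E 0, ‖v‖ = 0 := fun v => by rw [Subsingleton.elim v 0, norm_zero]
  refine ⟨h.c_pos, ?_, fun x v => ?_, fun x v => ?_, fun i => i.elim0, fun x => ?_⟩
  · exact_mod_cast contDiff_infty.1 h.smooth.neg 2
  · simp [qf, hz]
  · simp [qf, hz]
  · simp

theorem stmtMMc_of_lim (h1 : StmtLIMc) : StmtMMc := by
  intro n V c C hV hV0
  rcases Nat.eq_zero_or_pos n with rfl | hn
  · exact ⟨_, _, mmc_zero hV⟩
  · obtain ⟨M, φ, G, H, hC, hma⟩ := h1 n hn V c C hV hV0
    have hc : 0 < c := hV.c_pos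
    have hC0 : 0 < C := hc.trans_le (MM.nice_le hn hV)
    have hM : 0 ≤ M := by
      have h2 := M_nonneg_of hC 0 (ei ⟨0, hn⟩)
      have h3 : ‖(ei ⟨0, hn⟩ : E n)‖ = 1 := by simp [ei]
      rwa [h3, mul_one] at h2
    obtain ⟨ψ, M', h0, h2, h3, h4, h5, h6⟩ := D575.mmc_of_dual hc hC0 hM hC.grad hC.hess
      (fun y v w => by rw [hC.symm, real_inner_comm]) hC.lower hC.upper hC.lip hma
    exact ⟨ψ, M', h0, h2, h3, h4, h5, h6⟩

/-- **right half of the existence of the moment map, no evenness** -/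
theorem stmtMMc_of_lk (h : StmtLKc) : StmtMMc := stmtMMc_of_lim (stmtLIMc_of h)

end Vale.Agent.P254.MC
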