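import Vale.Agent.P254.MC.Desc2
import Vale.Agent.P254.MC.LKc
import Vale.Agent.P254.MC.InvC
import Vale.Agent.P254.MC.TopR

/-! # P254/MC: the moment map of a centred regular potential, from `StmtSC` alone -/

namespace Vale.Agent.P254.MC

open Vale.Agent.P227.M

theorem stmtLKc_of_sc (hSC : StmtSC) : StmtLKc := stmtLKc_of (stmtInvc_of_sc hSC) stmtStartc stmtDescc

/-- **existence of the `C^{2,1}` moment map for centred regular potentials** -/
theorem stmtMMc_of_sc (hSC : StmtSC) : StmtMMc := stmtMMc_of_lk (stmtLKc_of_sc hSC)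

end Vale.Agent.P254.MC
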