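import Vale.Agent.P227.M.K794.Cal
import Vale.Agent.P227.M.Bas

/-! # P254/MC: weighted integration by parts without compact support, identity (K0) (helper497)

`PG u`: a.e. strongly measurable, polynomially bounded a.e.
`G1 f`: locally Lipschitz, `f` and the `pd i f` in `PG`.
`ibpw`: `∫ ∂_i f e^{-V} = ∫ f V_i e^{-V}`; `exw`: exchange of derivatives; `k0`: (K0). -/

set_option linter.all false

open MeasureTheory Filter Topology
open scoped NNReal ContDiff

namespace Vale.Agent.P254.MC.W497

open Vale.Agent.P227.M Vale.Agent.P227.M.K794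

variable {n : ℕ} {V : E n → ℝ} {c C : ℝ}

/-! ### polynomially bounded functions -/

def PG (u : E n → ℝ) : Prop :=
  AEStronglyMeasurable u volume ∧ ∃ (B : ℝ) (k : ℕ), 0 ≤ B ∧ ∀ᵐ x : E n, |u x| ≤ B * (1 + ‖x‖) ^ k

theorem PG.of_gr {u : E n → ℝ} (h : Gr u) : PG u := by
  obtain ⟨hc, B, k, hB, hb⟩ := h
  exact ⟨hc.aestronglyMeasurable, B, k, hB, Eventually.of_forall hb⟩

theorem PG.congr {u v : E n → ℝ} (h : PG u) (huv : u =ᵐ[volume] v) : PG v := by
  obtain ⟨hm, B, k, hB, hb⟩ := h
  refine ⟨hm.congr huv, B, k, hB, ?_⟩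
  filter_upwards [hb, huv] with x h1 h2
  rw [← h2]
  exact h1

theorem PG.const (r : ℝ) : PG (fun _ : E n => r) := PG.of_gr (Gr.const r)

theorem PG.add {f g : E n → ℝ} (hf : PG f) (hg : PG g) : PG (fun x => f x + g x) := by
  obtain ⟨hfc, B, k, hB, hb⟩ := hf
  obtain ⟨hgc, D, l, hD, hd⟩ := hg
  refine ⟨hfc.add hgc, B + D, k + l, add_nonneg hB hD, ?_⟩
  filter_upwards [hb, hd] with x hbx hdx
  have h1 := one_le_one_add_norm x
  have hk : (1 + ‖x‖) ^ k ≤ (1 + ‖x‖) ^ (k + l) := pow_le_pow_right₀ h1 (Nat.le_add_right _ _)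
  have hl : (1 + ‖x‖) ^ l ≤ (1 + ‖x‖) ^ (k + l) := pow_le_pow_right₀ h1 (Nat.le_add_left _ _)
  calc |f x + g x| ≤ |f x| + |g x| := abs_add_le _ _
    _ ≤ B * (1 + ‖x‖) ^ k + D * (1 + ‖x‖) ^ l := add_le_add hbx hdx
    _ ≤ B * (1 + ‖x‖) ^ (k + l) + D * (1 + ‖x‖) ^ (k + l) := by gcongr
    _ = _ := by ring

theorem PG.mul {f g : E n → ℝ} (hf : PG f) (hg : PG g) : PG (fun x => f x * g x) := by
  obtain ⟨hfc, B, k, hB, hb⟩ := hf
  obtain ⟨hgc, D, l, hD, hd⟩ := hg
  refine ⟨hfc.mul hgc, B * D, k + l, mul_nonneg hB hD, ?_⟩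
  filter_upwards [hb, hd] with x hbx hdx
  rw [abs_mul, pow_add]
  calc |f x| * |g x| ≤ (B * (1 + ‖x‖) ^ k) * (D * (1 + ‖x‖) ^ l) :=
        mul_le_mul hbx hdx (abs_nonneg _) (mul_nonneg hB (pow_nonneg (by positivity) _))
    _ = _ := by ring

theorem PG.neg {f : E n → ℝ} (hf : PG f) : PG (fun x => -f x) := by
  obtain ⟨hfc, B, k, hB, hb⟩ := hf
  refine ⟨hfc.neg, B, k, hB, ?_⟩
  filter_upwards [hb] with x hx
  rw [abs_neg]
  exact hx

theorem PG.sub {f g : E n → ℝ} (hf : PG f) (hg : PG g) : PG (fun x => f x - g x) := by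
  have h := hf.add hg.neg
  simpa [sub_eq_add_neg] using h

theorem PG.sum {ι : Type*} (s : Finset ι) {f : ι → E n → ℝ} (hf : ∀ i ∈ s, PG (f i)) :
    PG (fun x => ∑ i ∈ s, f i x) := by
  classical
  induction s using Finset.induction_on with
  | empty => simpa using PG.const (n := n) 0
  | insert a s ha ih =>
    have h := (hf a (Finset.mem_insert_self a s)).add
      (ih fun i hi => hf i (Finset.mem_insert_of_mem hi))
    simpa [Finset.sum_insert ha] using h

theorem PG.int (hV : Reg V c C) {u : E n → ℝ} (hu : PG u) : Integrable (fun x => u x * Real.exp (-V x)) := by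
  obtain ⟨hm, B, k, hB, hb⟩ := hu
  have hg : Gr (fun x : E n => B * (1 + ‖x‖) ^ k) :=
    ((Gr.const (n := n) 1).add Gr.norm).pow k |>.const_mul B
  refine (hV.integrable_gr hg).mono' (hm.mul (Real.continuous_exp.comp hV.cont.neg).aestronglyMeasurable) ?_
  filter_upwards [hb] with x hx
  rw [Real.norm_eq_abs, abs_mul, Real.abs_exp]
  exact mul_le_mul_of_nonneg_right hx (Real.exp_pos _).le

theorem int_add (hV : Reg V c C) {u v : E n → ℝ} (hu : PG u) (hv : PG v) :
    ∫ x, (u x + v x) * Real.exp (-V x) = (∫ x, u x * Real.exp (-V x)) + ∫ x, v x * Real.exp (-V x) := by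
  rw [← integral_add (hu.int hV) (hv.int hV)]
  refine integral_congr_ae (Eventually.of_forall fun x => ?_)
  simp only
  ring

theorem int_sub (hV : Reg V c C) {u v : E n → ℝ} (hu : PG u) (hv : PG v) :
    ∫ x, (u x - v x) * Real.exp (-V x) = (∫ x, u x * Real.exp (-V x)) - ∫ x, v x * Real.exp (-V x) := by
  rw [← integral_sub (hu.int hV) (hv.int hV)]
  refine integral_congr_ae (Eventually.of_forall fun x => ?_)
  simp only
  ring

theorem int_sum (hV : Reg V c C) {ι : Type*} (s : Finset ι) {u : ι → E n → ℝ} (hu : ∀ i ∈ s, PG (u i)) :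
    ∫ x, (∑ i ∈ s, u i x) * Real.exp (-V x) = ∑ i ∈ s, ∫ x, u i x * Real.exp (-V x) := by
  rw [← integral_finsetSum s fun i hi => (hu i hi).int hV]
  refine integral_congr_ae (Eventually.of_forall fun x => ?_)
  simp only
  rw [Finset.sum_mul]

theorem int_congr {u v : E n → ℝ} (V : E n → ℝ) (h : u =ᵐ[volume] v) :
    ∫ x, u x * Real.exp (-V x) = ∫ x, v x * Real.exp (-V x) := by
  refine integral_congr_ae ?_
  filter_upwards [h] with x hx
  rw [hx]

/-! ### cut-offs -/

/-- the reference cut-off -/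
noncomputable def chi0 (n : ℕ) : ContDiffBump (0 : E n) := ⟨1, 2, by norm_num, by norm_num⟩

/-- the cut-off at radius `R` -/
noncomputable def cut (n : ℕ) (R : ℝ) (x : E n) : ℝ := chi0 n (R⁻¹ • x)

theorem cut_smooth (R : ℝ) : ContDiff ℝ (⊤ : ℕ∞) (cut n R) :=
  (chi0 n).contDiff.comp (contDiff_const_smul _)

theorem cut_nonneg (R : ℝ) (x : E n) : 0 ≤ cut n R x := (chi0 n).nonneg

theorem cut_le_one (R : ℝ) (x : E n) : cut n R x ≤ 1 := (chi0 n).le_one

theorem cut_one {R : ℝ} (hR : 0 < R) {x : E n} (hx : ‖x‖ ≤ R) : cut n R x = 1 := by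
  refine (chi0 n).one_of_mem_closedBall ?_
  simp only [Metric.mem_closedBall, dist_zero_right, norm_smul, norm_inv,
    Real.norm_of_nonneg hR.le, chi0]
  rw [inv_mul_eq_div, div_le_one hR]
  exact hx

theorem cut_zero {R : ℝ} (hR : 0 < R) {x : E n} (hx : 2 * R < ‖x‖) : cut n R x = 0 := by
  refine (chi0 n).zero_of_le_dist ?_
  simp only [dist_zero_right, norm_smul, norm_inv, Real.norm_of_nonneg hR.le, chi0]
  rw [inv_mul_eq_div, le_div_iff₀ hR]
  exact hx.le

theorem cut_cs {R : ℝ} (hR : 0 < R) : CS (cut n R) := ⟨2 * R, fun x hx => cut_zero hR hx⟩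

theorem cut_ll (R : ℝ) : LL (cut n R) := LL.of_contDiff ((cut_smooth R).of_le (by norm_cast))

theorem cut_pd (n : ℕ) : ∃ L : ℝ, 0 ≤ L ∧ ∀ R : ℝ, 0 < R → ∀ x i, |pd i (cut n R) x| ≤ L / R := by
  have hc : Continuous (fderiv ℝ (chi0 n : E n → ℝ)) :=
    (chi0 n).contDiff (n := 1).continuous_fderiv (by simp)
  obtain ⟨L, hL⟩ := ((chi0 n).hasCompactSupport.fderiv ℝ).exists_bound_of_continuous hc
  refine ⟨|L|, abs_nonneg _, fun R hR x i => ?_⟩
  have h2 : HasFDerivAt (fun x : E n => R⁻¹ • x) (R⁻¹ • ContinuousLinearMap.id ℝ (E n)) x :=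
    (hasFDerivAt_id x).const_smul R⁻¹
  have h3 : HasFDerivAt (chi0 n : E n → ℝ) (fderiv ℝ (chi0 n : E n → ℝ) (R⁻¹ • x)) (R⁻¹ • x) :=
    (((chi0 n).contDiff (n := 1)).differentiable (by simp) _).hasFDerivAt
  have h5 : fderiv ℝ (cut n R) x = _ := (h3.comp x h2).fderiv
  unfold pd
  rw [h5]
  simp only [ContinuousLinearMap.comp_smul, ContinuousLinearMap.comp_id,
    _root_.smul_apply, smul_eq_mul, abs_mul, abs_inv, abs_of_pos hR]
  have h6 := (fderiv ℝ (chi0 n : E n → ℝ) (R⁻¹ • x)).le_opNorm (ei i)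
  rw [norm_ei, mul_one] at h6
  rw [inv_mul_eq_div]
  have h7 : |fderiv ℝ (chi0 n : E n → ℝ) (R⁻¹ • x) (ei i)| ≤ |L| :=
    (h6.trans (hL _)).trans (le_abs_self L)
  gcongr

/-- the radii -/
noncomputable def rr (k : ℕ) : ℝ := (k : ℝ) + 1

theorem rr_pos (k : ℕ) : 0 < rr k := by unfold rr; positivity

theorem rr_tendsto : Tendsto rr atTop atTop := tendsto_atTop_add_const_right _ _ tendsto_natCast_atTop_atTop

/-- removal of the cut-off -/
theorem lim_cut (hV : Reg V c C) {u : E n → ℝ} (hu : PG u) :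
    Tendsto (fun k : ℕ => ∫ x, cut n (rr k) x * (u x * Real.exp (-V x))) atTop
      (𝓝 (∫ x, u x * Real.exp (-V x))) := by
  have hi := hu.int hV
  refine tendsto_integral_of_dominated_convergence (fun x => ‖u x * Real.exp (-V x)‖) (fun k => ?_) hi.norm
    (fun k => ?_) ?_
  · exact ((cut_smooth (rr k)).continuous.aestronglyMeasurable).mul hi.aestronglyMeasurable
  · refine Eventually.of_forall fun x => ?_
    rw [norm_mul, Real.norm_of_nonneg (cut_nonneg _ _)]
    exact mul_le_of_le_one_left (norm_nonneg _) (cut_le_one _ _)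
  · refine Eventually.of_forall fun x => ?_
    have h1 : ∀ᶠ k : ℕ in atTop, cut n (rr k) x * (u x * Real.exp (-V x)) = u x * Real.exp (-V x) := by
      filter_upwards [rr_tendsto.eventually_ge_atTop ‖x‖] with k hk
      rw [cut_one (rr_pos k) hk, one_mul]
    exact (tendsto_congr' h1).2 tendsto_const_nhds

/-- the error term -/
theorem lim_err (hV : Reg V c C) {u : E n → ℝ} (hu : PG u) (i : Fin n) :
    Tendsto (fun k : ℕ => ∫ x, pd i (cut n (rr k)) x * (u x * Real.exp (-V x))) atTop (𝓝 0) := by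
  obtain ⟨L, hL0, hL⟩ := cut_pd n
  have hi := hu.int hV
  have h1 : Tendsto (fun k : ℕ => L / rr k * ∫ x, ‖u x * Real.exp (-V x)‖) atTop (𝓝 0) := by
    have := (rr_tendsto.const_div_atTop L).mul_const (∫ x, ‖u x * Real.exp (-V x)‖)
    simpa using this
  refine squeeze_zero_norm (fun k => ?_) h1
  rw [← integral_const_mul]
  refine norm_integral_le_of_norm_le (hi.norm.const_mul _) (Eventually.of_forall fun x => ?_)
  rw [norm_mul, Real.norm_eq_abs (pd i (cut n (rr k)) x)]
  exact mul_le_mul_of_nonneg_right (hL _ (rr_pos k) x i) (norm_nonneg _)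

/-! ### the class `G1` -/

/-- locally Lipschitz, polynomially bounded together with its first derivatives -/
structure G1 (f : E n → ℝ) : Prop where
  ll : LL f
  pg : PG f
  pgd : ∀ i, PG (pd i f)

theorem G1.diff {f : E n → ℝ} (hf : G1 f) : ∀ᵐ x, DifferentiableAt ℝ f x := hf.ll.ae_diff

theorem pdm {i : Fin n} {f g : E n → ℝ} {x : E n} (hf : DifferentiableAt ℝ f x) (hg : DifferentiableAt ℝ g x) :
    pd i (fun y => f y * g y) x = pd i f x * g x + f x * pd i g x := by
  unfold pd
  rw [fderiv_fun_mul hf hg]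
  simp only [ContinuousLinearMap.add_apply, ContinuousLinearMap.smul_apply, smul_eq_mul]
  ring

theorem pda {i : Fin n} {f g : E n → ℝ} {x : E n} (hf : DifferentiableAt ℝ f x) (hg : DifferentiableAt ℝ g x) :
    pd i (fun y => f y + g y) x = pd i f x + pd i g x := by
  unfold pd
  rw [fderiv_fun_add hf hg]
  rfl

theorem G1.mul {f g : E n → ℝ} (hf : G1 f) (hg : G1 g) : G1 (fun x => f x * g x) where
  ll := hf.ll.mul hg.ll
  pg := hf.pg.mul hg.pg
  pgd i := by
    refine (((hf.pgd i).mul hg.pg).add (hf.pg.mul (hg.pgd i))).congr ?_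
    filter_upwards [hf.diff, hg.diff] with x h1 h2
    exact (pdm h1 h2).symm

theorem G1.add {f g : E n → ℝ} (hf : G1 f) (hg : G1 g) : G1 (fun x => f x + g x) where
  ll := hf.ll.add hg.ll
  pg := hf.pg.add hg.pg
  pgd i := by
    refine ((hf.pgd i).add (hg.pgd i)).congr ?_
    filter_upwards [hf.diff, hg.diff] with x h1 h2
    exact (pda h1 h2).symm

theorem G1.const (r : ℝ) : G1 (fun _ : E n => r) where
  ll := LL.const r
  pg := PG.const r
  pgd i := by
    have : pd i (fun _ : E n => r) = fun _ => 0 := by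
      funext x
      simp [pd]
    rw [this]
    exact PG.const 0

theorem G1.neg {f : E n → ℝ} (hf : G1 f) : G1 (fun x => -f x) := by
  have := (G1.const (n := n) (-1)).mul hf
  simpa using this

theorem G1.sub {f g : E n → ℝ} (hf : G1 f) (hg : G1 g) : G1 (fun x => f x - g x) := by
  have h := hf.add hg.neg
  simpa [sub_eq_add_neg] using h

theorem G1.sum {ι : Type*} (s : Finset ι) {f : ι → E n → ℝ} (hf : ∀ i ∈ s, G1 (f i)) :
    G1 (fun x => ∑ i ∈ s, f i x) := by
  classical
  induction s using Finset.induction_on with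
  | empty => simpa using G1.const (n := n) 0
  | insert a s ha ih =>
    have h := (hf a (Finset.mem_insert_self a s)).add
      (ih fun i hi => hf i (Finset.mem_insert_of_mem hi))
    simpa [Finset.sum_insert ha] using h

/-- bounded Lipschitz functions -/
theorem G1.of_lip {f : E n → ℝ} {B K : ℝ} (hB : ∀ x, |f x| ≤ B) (hK : ∀ x y, |f x - f y| ≤ K * ‖x - y‖) :
    G1 f := by
  have hll : LL f := LL.of_lip hK
  refine ⟨hll, PG.of_gr (Gr.of_bound hll.continuous hB), fun i => ?_⟩
  have hm := (LB.pd hll i).1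
  refine ⟨hm, |K|, 0, abs_nonneg _, Eventually.of_forall fun x => ?_⟩
  rw [pow_zero, mul_one]
  have h1 : ‖fderiv ℝ f x‖ ≤ |K| := by
    refine norm_fderiv_le_of_lip' ℝ (abs_nonneg K) (Eventually.of_forall fun y => ?_)
    rw [Real.norm_eq_abs]
    exact (hK y x).trans (mul_le_mul_of_nonneg_right (le_abs_self K) (norm_nonneg _))
  calc |pd i f x| = ‖fderiv ℝ f x (ei i)‖ := rfl
    _ ≤ ‖fderiv ℝ f x‖ * ‖(ei i : E n)‖ := ContinuousLinearMap.le_opNorm _ _
    _ ≤ |K| := by rw [norm_ei, mul_one]; exact h1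

/-- smooth functions with polynomially bounded first derivatives -/
theorem G1.of_gr {f : E n → ℝ} (hf : ContDiff ℝ 1 f) (h0 : Gr f) (h1 : ∀ i, Gr (pd i f)) : G1 f :=
  ⟨LL.of_contDiff hf, PG.of_gr h0, fun i => PG.of_gr (h1 i)⟩

theorem G1.coord (j : Fin n) : G1 (fun x : E n => x j) := by
  refine G1.of_gr (by fun_prop) (Gr.coord j) fun i => ?_
  have : pd i (fun x : E n => x j) = fun _ => if j = i then 1 else 0 := by
    funext x
    have h : (fun y : E n => y j) = (EuclideanSpace.proj j : E n →L[ℝ] ℝ) := rfl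
    unfold pd
    rw [h, ContinuousLinearMap.fderiv]
    simp [ei]
  rw [this]
  exact Gr.const _

theorem G1.pdV (hV : Reg V c C) (j : Fin n) : G1 (pd j V) :=
  G1.of_gr (contDiff_pd (k := 1) hV.C2 (by norm_num) j) (hV.gr_pd j) fun i => hV.gr_hess i j

/-! ### integration by parts -/

theorem exp_ll (hV : Reg V c C) : LL (fun x => Real.exp (-V x)) :=
  LL.exp (LL.of_contDiff (hV.smooth.of_le (by norm_cast) : ContDiff ℝ 1 V)).neg

theorem exp_diff (hV : Reg V c C) (x : E n) : DifferentiableAt ℝ (fun y : E n => Real.exp (-V y)) x :=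
  ((hV.smooth.differentiable (by simp) x).fun_neg).exp

theorem exp_pd (hV : Reg V c C) (i : Fin n) (x : E n) :
    pd i (fun y : E n => Real.exp (-V y)) x = - (pd i V x) * Real.exp (-V x) := by
  have hd : DifferentiableAt ℝ V x := hV.smooth.differentiable (by simp) x
  show fderiv ℝ (fun y : E n => Real.exp (-V y)) x (ei i) = _
  rw [fderiv_exp hd.fun_neg, fderiv_fun_neg]
  simp only [ContinuousLinearMap.smul_apply, ContinuousLinearMap.neg_apply, smul_eq_mul]
  show Real.exp (-V x) * -(pd i V x) = _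
  ring

/-- derivative of `ζ g e^{-V}` -/
theorem pd_cut (hV : Reg V c C) {g : E n → ℝ} {x : E n} (hg : DifferentiableAt ℝ g x) (R : ℝ) (i : Fin n) :
    pd i (fun y => cut n R y * (g y * Real.exp (-V y))) x =
      pd i (cut n R) x * (g x * Real.exp (-V x)) + cut n R x * ((pd i g x - g x * pd i V x) * Real.exp (-V x)) := by
  have h1 : DifferentiableAt ℝ (cut n R) x := (cut_smooth R).differentiable (by simp) x
  rw [pdm h1 (hg.fun_mul (exp_diff hV x)), pdm hg (exp_diff hV x), exp_pd hV]
  ring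

/-- `∫ ∂_i f e^{-V} = ∫ f V_i e^{-V}` -/
theorem ibpw (hV : Reg V c C) {f : E n → ℝ} (hf : G1 f) (i : Fin n) :
    ∫ x, pd i f x * Real.exp (-V x) = ∫ x, (f x * pd i V x) * Real.exp (-V x) := by
  have hVi : PG (pd i V) := PG.of_gr (hV.gr_pd i)
  have hu : PG (fun x => pd i f x - f x * pd i V x) := (hf.pgd i).sub (hf.pg.mul hVi)
  have A := lim_cut hV hu
  have B := lim_err hV hf.pg i
  have key : ∀ k : ℕ, (∫ x, cut n (rr k) x * ((pd i f x - f x * pd i V x) * Real.exp (-V x))) =
      - ∫ x, pd i (cut n (rr k)) x * (f x * Real.exp (-V x)) := by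
    intro k
    have h0 : ∫ x, pd i (fun y => cut n (rr k) y * (f y * Real.exp (-V y))) x = 0 :=
      int_pd_zero ((cut_ll (rr k)).mul (hf.ll.mul (exp_ll hV))) ((cut_cs (rr_pos k)).mul_right _) i
    have h1 : ∫ x, pd i (fun y => cut n (rr k) y * (f y * Real.exp (-V y))) x =
        ∫ x, (pd i (cut n (rr k)) x * (f x * Real.exp (-V x))
          + cut n (rr k) x * ((pd i f x - f x * pd i V x) * Real.exp (-V x))) := by
      refine integral_congr_ae ?_
      filter_upwards [hf.diff] with x hx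
      exact pd_cut hV hx _ i
    have i1 : Integrable (fun x => pd i (cut n (rr k)) x * (f x * Real.exp (-V x))) := by
      obtain ⟨L, hL0, hL⟩ := cut_pd n
      refine (hf.pg.int hV).bdd_mul (c := L / rr k) ?_ (Eventually.of_forall fun x => hL _ (rr_pos k) x i)
      exact (measurable_fderiv_apply_const ℝ (cut n (rr k)) (ei i)).aestronglyMeasurable
    have i2 : Integrable (fun x => cut n (rr k) x * ((pd i f x - f x * pd i V x) * Real.exp (-V x))) := by
      refine (hu.int hV).bdd_mul (c := 1) (cut_smooth (rr k)).continuous.aestronglyMeasurable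
        (Eventually.of_forall fun x => ?_)
      rw [Real.norm_of_nonneg (cut_nonneg _ _)]
      exact cut_le_one _ _
    rw [h1, integral_add i1 i2] at h0
    linarith
  simp only [key] at A
  have h2 := tendsto_nhds_unique A B.neg
  have h3 : ∫ x, (pd i f x - f x * pd i V x) * Real.exp (-V x) =
      (∫ x, pd i f x * Real.exp (-V x)) - ∫ x, (f x * pd i V x) * Real.exp (-V x) := by
    rw [← integral_sub ((hf.pgd i).int hV) ((hf.pg.mul hVi).int hV)]
    refine integral_congr_ae (Eventually.of_forall fun x => ?_)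
    simp only
    ring
  rw [h3, neg_zero] at h2
  linarith

/-- exchange of derivatives: `∫ ∂_a f ∂_b (g e^{-V}) = ∫ ∂_b f ∂_a (g e^{-V})` -/
theorem exw (hV : Reg V c C) {f g : E n → ℝ} (hf : G1 f) (hg : G1 g) (a b : Fin n) :
    ∫ x, (pd a f x * (pd b g x - g x * pd b V x)) * Real.exp (-V x) =
      ∫ x, (pd b f x * (pd a g x - g x * pd a V x)) * Real.exp (-V x) := by
  have hVa : ∀ i, PG (pd i V) := fun i => PG.of_gr (hV.gr_pd i)
  have hu : ∀ a b : Fin n, PG (fun x => pd a f x * (pd b g x - g x * pd b V x)) := fun a b =>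
    (hf.pgd a).mul ((hg.pgd b).sub (hg.pg.mul (hVa b)))
  have hw : ∀ a : Fin n, PG (fun x => pd a f x * g x) := fun a => (hf.pgd a).mul hg.pg
  -- both cut-off integrals agree
  have key : ∀ k : ℕ, (∫ x, cut n (rr k) x * ((pd a f x * (pd b g x - g x * pd b V x)) * Real.exp (-V x)))
        + (∫ x, pd b (cut n (rr k)) x * ((pd a f x * g x) * Real.exp (-V x))) =
      (∫ x, cut n (rr k) x * ((pd b f x * (pd a g x - g x * pd a V x)) * Real.exp (-V x)))
        + (∫ x, pd a (cut n (rr k)) x * ((pd b f x * g x) * Real.exp (-V x))) := by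
    intro k
    have hR := rr_pos k
    have hR3 : 0 < 3 * rr k := by linarith
    set W : E n → ℝ := fun y => cut n (3 * rr k) y * f y with hW
    set G : E n → ℝ := fun y => cut n (rr k) y * (g y * Real.exp (-V y)) with hG
    have lW : LL W := (cut_ll _).mul hf.ll
    have cW : CS W := (cut_cs hR3).mul_right _
    have lG : LL G := (cut_ll _).mul (hg.ll.mul (exp_ll hV))
    have cG : CS G := (cut_cs hR).mul_right _
    have h0 := null_lag lW cW lG cG b a
    -- `W` may be replaced by `f`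
    have h1 : ∀ (i j : Fin n) (x : E n), pd i W x * pd j G x = pd i f x * pd j G x := by
      intro i j x
      rcases lt_or_ge ‖x‖ (3 * rr k) with hx | hx
      · have : W =ᶠ[𝓝 x] f := by
          filter_upwards [(isOpen_lt continuous_norm continuous_const).mem_nhds hx] with y hy
          simp only [hW]
          rw [cut_one hR3 (le_of_lt hy), one_mul]
        unfold pd
        rw [this.fderiv_eq]
      · have : G =ᶠ[𝓝 x] fun _ => (0 : ℝ) := by
          have hx2 : 2 * rr k < ‖x‖ := by linarith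
          filter_upwards [(isOpen_lt continuous_const continuous_norm).mem_nhds hx2] with y hy
          simp only [hG]
          rw [cut_zero hR hy, zero_mul]
        have h2 : pd j G x = 0 := by
          unfold pd
          rw [this.fderiv_eq]
          simp
        rw [h2, mul_zero, mul_zero]
    simp only [h1] at h0
    -- expand the derivative of `G`
    have h3 : ∀ i j : Fin n, ∫ x, pd i f x * pd j G x =
        (∫ x, cut n (rr k) x * ((pd i f x * (pd j g x - g x * pd j V x)) * Real.exp (-V x)))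
        + (∫ x, pd j (cut n (rr k)) x * ((pd i f x * g x) * Real.exp (-V x))) := by
      intro i j
      have i1 : Integrable (fun x => pd j (cut n (rr k)) x * ((pd i f x * g x) * Real.exp (-V x))) := by
        obtain ⟨L, hL0, hL⟩ := cut_pd n
        refine ((hw i).int hV).bdd_mul (c := L / rr k) ?_ (Eventually.of_forall fun x => hL _ (rr_pos k) x j)
        exact (measurable_fderiv_apply_const ℝ (cut n (rr k)) (ei j)).aestronglyMeasurable
      have i2 : Integrable (fun x => cut n (rr k) x *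
          ((pd i f x * (pd j g x - g x * pd j V x)) * Real.exp (-V x))) := by
        refine ((hu i j).int hV).bdd_mul (c := 1) (cut_smooth (rr k)).continuous.aestronglyMeasurable
          (Eventually.of_forall fun x => ?_)
        rw [Real.norm_of_nonneg (cut_nonneg _ _)]
        exact cut_le_one _ _
      rw [← integral_add i2 i1]
      refine integral_congr_ae ?_
      filter_upwards [hg.diff] with x hx
      simp only [hG]
      rw [pd_cut hV hx]
      ring
    rw [h3 a b, h3 b a] at h0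
    exact h0
  have A1 := (lim_cut hV (hu a b)).add (lim_err hV (hw a) b)
  have A2 := (lim_cut hV (hu b a)).add (lim_err hV (hw b) a)
  simp only [key] at A1
  have := tendsto_nhds_unique A1 A2
  simpa using this

/-- (K0): `∫ V_bc f g = ∫ (V_b f - ∂_b f)(V_c g - ∂_c g) - ∫ ∂_c f ∂_b g` against `e^{-V}` -/
theorem k0 (hV : Reg V c C) {f g : E n → ℝ} (hf : G1 f) (hg : G1 g) (b k : Fin n) :
    ∫ x, (hess V x b k * (f x * g x)) * Real.exp (-V x) =
      (∫ x, ((pd b V x * f x - pd b f x) * (pd k V x * g x - pd k g x)) * Real.exp (-V x))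
        - ∫ x, (pd k f x * pd b g x) * Real.exp (-V x) := by
  have hVa : ∀ i, G1 (pd i V) := fun i => G1.pdV hV i
  have hh : PG (fun x => hess V x b k) := PG.of_gr (hV.gr_hess b k)
  have p0 : PG (fun x => hess V x b k * (f x * g x)) := hh.mul (hf.pg.mul hg.pg)
  have p1 : PG (fun x => pd k f x * pd b g x) := (hf.pgd k).mul (hg.pgd b)
  have p2 : PG (fun x => pd k f x * (g x * pd b V x)) := (hf.pgd k).mul (hg.pg.mul (hVa b).pg)
  have p3 : PG (fun x => pd b f x * pd k g x) := (hf.pgd b).mul (hg.pgd k)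
  have p4 : PG (fun x => pd b f x * (g x * pd k V x)) := (hf.pgd b).mul (hg.pg.mul (hVa k).pg)
  have p5 : PG (fun x => pd k V x * (f x * pd b g x)) := (hVa k).pg.mul (hf.pg.mul (hg.pgd b))
  have p6 : PG (fun x => (pd k V x * (f x * g x)) * pd b V x) := ((hVa k).pg.mul (hf.pg.mul hg.pg)).mul (hVa b).pg
  have p7 : PG (fun x => pd b V x * (f x * pd k g x)) := (hVa b).pg.mul (hf.pg.mul (hg.pgd k))
  -- integration by parts of `V_k f g` in direction `b`
  have e1 := ibpw hV ((hVa k).mul (hf.mul hg)) b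
  have e2 : ∫ x, pd b (fun y => pd k V y * (f y * g y)) x * Real.exp (-V x) =
      (∫ x, (hess V x b k * (f x * g x)) * Real.exp (-V x))
        + ((∫ x, (pd b f x * (g x * pd k V x)) * Real.exp (-V x))
          + ∫ x, (pd k V x * (f x * pd b g x)) * Real.exp (-V x)) := by
    rw [← int_add hV p4 p5, ← int_add hV p0 (p4.add p5)]
    refine int_congr V ?_
    filter_upwards [hf.diff, hg.diff, (hVa k).diff] with x h1 h2 h3
    rw [pdm h3 (h1.fun_mul h2), pdm h1 h2]
    show hess V x b k * (f x * g x) + pd k V x * (pd b f x * g x + f x * pd b g x) = _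
    ring
  have e3 := exw hV hf hg k b
  have q3 : ∀ i j : Fin n, ∫ x, (pd i f x * (pd j g x - g x * pd j V x)) * Real.exp (-V x) =
      (∫ x, (pd i f x * pd j g x) * Real.exp (-V x)) - ∫ x, (pd i f x * (g x * pd j V x)) * Real.exp (-V x) := by
    intro i j
    rw [← int_sub hV ((hf.pgd i).mul (hg.pgd j)) ((hf.pgd i).mul (hg.pg.mul (hVa j).pg))]
    refine int_congr V (Eventually.of_forall fun x => ?_)
    simp only
    ring
  rw [q3 k b, q3 b k] at e3
  -- integration by parts of `V_b f g`... in direction `k`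
  have e4 := ibpw hV ((hVa b).mul (hf.mul hg)) k
  have q1 : ∫ x, ((pd b V x * f x - pd b f x) * (pd k V x * g x - pd k g x)) * Real.exp (-V x) =
      (((∫ x, ((pd k V x * (f x * g x)) * pd b V x) * Real.exp (-V x))
      - (∫ x, (pd b V x * (f x * pd k g x)) * Real.exp (-V x)))
      - (∫ x, (pd b f x * (g x * pd k V x)) * Real.exp (-V x)))
      + (∫ x, (pd b f x * pd k g x) * Real.exp (-V x)) := by
    rw [← int_sub hV p6 p7, ← int_sub hV (p6.sub p7) p4, ← int_add hV ((p6.sub p7).sub p4) p3]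
    refine int_congr V (Eventually.of_forall fun x => ?_)
    simp only
    ring
  -- the same with the roles exchanged
  have hsym : ∀ x, hess V x k b = hess V x b k := fun x => hess_symm hV.C2 x k b
  have p8 : PG (fun x => pd k f x * (g x * pd b V x)) := p2
  have e5 : ∫ x, pd k (fun y => pd b V y * (f y * g y)) x * Real.exp (-V x) =
      (∫ x, (hess V x b k * (f x * g x)) * Real.exp (-V x))
        + ((∫ x, (pd k f x * (g x * pd b V x)) * Real.exp (-V x))
          + ∫ x, (pd b V x * (f x * pd k g x)) * Real.exp (-V x)) := by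
    rw [← int_add hV p2 p7, ← int_add hV p0 (p2.add p7)]
    refine int_congr V ?_
    filter_upwards [hf.diff, hg.diff, (hVa b).diff] with x h1 h2 h3
    rw [pdm h3 (h1.fun_mul h2), pdm h1 h2, ← hsym x]
    show hess V x k b * (f x * g x) + pd b V x * (pd k f x * g x + f x * pd k g x) = _
    ring
  have e6 : ∫ x, ((pd b V x * (f x * g x)) * pd k V x) * Real.exp (-V x) =
      ∫ x, ((pd k V x * (f x * g x)) * pd b V x) * Real.exp (-V x) := by
    refine int_congr V (Eventually.of_forall fun x => ?_)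
    simp only
    ring
  rw [q1]
  linarith

end Vale.Agent.P254.MC.W497
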